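import Vale.Agent.P097.H490.Par

/-! # P097 / H490 : the kink lemma at a regular point -/

set_option linter.all false

open Complex Set Filter Topology MeasureTheory

namespace Vale.Agent.P097.H490

theorem diffOn_shift {U : Set ℂ} (hU : IsOpen U) {a b : ℝ} (hab : a ≤ b) {Q : ℂ → ℂ → ℂ}
    {S : Set (ℂ × ℂ)} (hQ : DifferentiableOn ℂ (fun p : ℂ × ℂ => Q p.1 p.2) S)
    {k c w : ℝ → ℂ} (hk : Continuous k) (hc : Continuous c) (hw : Continuous w)
    (hmem : ∀ z ∈ U, ∀ θ ∈ Icc a b, (z + c θ, w θ) ∈ S) :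
    DifferentiableOn ℂ (fun z => ∫ θ in a..b, k θ * Q (z + c θ) (w θ)) U := by
  refine diffOn_integral hU hab ?_ ?_
  · refine ContinuousOn.mul (by fun_prop) ?_
    exact hQ.continuousOn.comp (f := fun p : ℂ × ℝ => ((p.1 + c p.2, w p.2) : ℂ × ℂ))
      (Continuous.continuousOn (by fun_prop)) (fun p hp => hmem p.1 hp.1 p.2 hp.2)
  · intro θ hθ
    refine DifferentiableOn.const_mul ?_ _
    exact hQ.comp (f := fun z : ℂ => ((z + c θ, w θ) : ℂ × ℂ))
      (Differentiable.differentiableOn (by fun_prop)) (fun z hz => hmem z hz θ hθ)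

theorem integrable_shift {a b : ℝ} (hab : a ≤ b) {Q : ℂ → ℂ → ℂ}
    {S : Set (ℂ × ℂ)} (hQ : DifferentiableOn ℂ (fun p : ℂ × ℂ => Q p.1 p.2) S)
    {k c w : ℝ → ℂ} (hk : Continuous k) (hc : Continuous c) (hw : Continuous w) {z : ℂ}
    (hmem : ∀ θ ∈ Icc a b, (z + c θ, w θ) ∈ S) :
    IntervalIntegrable (fun θ => k θ * Q (z + c θ) (w θ)) volume a b := by
  refine ContinuousOn.intervalIntegrable ?_
  rw [uIcc_of_le hab]
  refine ContinuousOn.mul (by fun_prop) ?_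
  exact hQ.continuousOn.comp (f := fun θ : ℝ => ((z + c θ, w θ) : ℂ × ℂ))
      (Continuous.continuousOn (by fun_prop)) (fun θ hθ => hmem θ hθ)

/-- the circle -/
noncomputable def cw (ρ : ℝ) (θ : ℝ) : ℂ := circleMap 0 (ρ / 2) θ

/-- the shift `-i w²/(4ρ)` -/
noncomputable def cs (ρ : ℝ) (θ : ℝ) : ℂ := -I * (cw ρ θ) ^ 2 / (4 * ρ)

theorem cw_cont (ρ : ℝ) : Continuous (cw ρ) := by unfold cw; fun_prop

theorem cs_cont (ρ : ℝ) : Continuous (cs ρ) := by
  have := cw_cont ρ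
  unfold cs
  fun_prop

theorem cw_eq (ρ θ : ℝ) : cw ρ θ = ((ρ / 2 * Real.cos θ : ℝ) : ℂ) + ((ρ / 2 * Real.sin θ : ℝ) : ℂ) * I := by
  unfold cw circleMap
  rw [Complex.exp_mul_I]
  push_cast
  ring

theorem cw_im (ρ θ : ℝ) : (cw ρ θ).im = ρ / 2 * Real.sin θ := by
  rw [cw_eq]; simp [-Complex.ofReal_mul, -Complex.ofReal_cos, -Complex.ofReal_sin]

theorem cw_re (ρ θ : ℝ) : (cw ρ θ).re = ρ / 2 * Real.cos θ := by
  rw [cw_eq]; simp [-Complex.ofReal_mul, -Complex.ofReal_cos, -Complex.ofReal_sin]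

theorem cw_norm {ρ : ℝ} (hρ : 0 < ρ) (θ : ℝ) : ‖cw ρ θ‖ = ρ / 2 := by
  unfold cw
  rw [norm_circleMap_zero, abs_of_pos (by linarith)]

theorem cs_im {ρ : ℝ} (hρ : 0 < ρ) (θ : ℝ) : (cs ρ θ).im = -(ρ / 16) * (1 - 2 * Real.sin θ ^ 2) := by
  have h1 : (cw ρ θ) ^ 2 = ((ρ ^ 2 / 4 * (1 - 2 * Real.sin θ ^ 2) : ℝ) : ℂ) +
      ((ρ ^ 2 / 2 * (Real.sin θ * Real.cos θ) : ℝ) : ℂ) * I := by
    rw [cw_eq]
    have hc : Real.cos θ ^ 2 = 1 - Real.sin θ ^ 2 := Real.cos_sq' θ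
    apply Complex.ext
    · simp [-Complex.ofReal_mul, -Complex.ofReal_cos, -Complex.ofReal_sin, pow_two,
        -Complex.ofReal_sub, -Complex.ofReal_div, -Complex.ofReal_pow]
      nlinarith [hc]
    · simp [-Complex.ofReal_mul, -Complex.ofReal_cos, -Complex.ofReal_sin, pow_two,
        -Complex.ofReal_sub, -Complex.ofReal_div, -Complex.ofReal_pow]
      ring
  have h2 : cs ρ θ = (((ρ / 8 * (Real.sin θ * Real.cos θ)) : ℝ) : ℂ) +
      ((-(ρ / 16) * (1 - 2 * Real.sin θ ^ 2) : ℝ) : ℂ) * I := by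
    unfold cs
    rw [h1]
    have hρ' : (ρ : ℂ) ≠ 0 := by exact_mod_cast hρ.ne'
    push_cast
    field_simp
    ring_nf
    simp only [I_sq]
    ring
  rw [h2]
  simp [-Complex.ofReal_mul, -Complex.ofReal_cos, -Complex.ofReal_sin,
        -Complex.ofReal_sub, -Complex.ofReal_div, -Complex.ofReal_pow, -Complex.ofReal_neg]

theorem cs_norm {ρ : ℝ} (hρ : 0 < ρ) (θ : ℝ) : ‖cs ρ θ‖ = ρ / 16 := by
  unfold cs
  rw [norm_div, norm_mul, norm_neg, Complex.norm_I, norm_pow, cw_norm hρ, norm_mul,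
    Complex.norm_real, Real.norm_of_nonneg hρ.le]
  norm_num
  field_simp
  norm_num


theorem sin_lo {θ : ℝ} (h : θ ∈ Icc 0 (Real.pi / 6)) : Real.sin θ ^ 2 ≤ 1 / 4 := by
  have hpi := Real.pi_pos
  have h0 : 0 ≤ Real.sin θ := Real.sin_nonneg_of_nonneg_of_le_pi h.1 (by linarith [h.2])
  have h1 : Real.sin θ ≤ 1 / 2 := by
    rw [← Real.sin_pi_div_six]
    exact Real.sin_le_sin_of_le_of_le_pi_div_two (by linarith [h.1]) (by linarith) h.2
  nlinarith

theorem sin_hi {θ : ℝ} (h : θ ∈ Icc (Real.pi / 6) (5 * Real.pi / 6)) : 1 / 2 ≤ Real.sin θ := by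
  have hpi := Real.pi_pos
  rcases le_total θ (Real.pi / 2) with h2 | h2
  · rw [← Real.sin_pi_div_six]
    exact Real.sin_le_sin_of_le_of_le_pi_div_two (by linarith) h2 h.1
  · rw [← Real.sin_pi_div_six, ← Real.sin_pi_sub θ]
    exact Real.sin_le_sin_of_le_of_le_pi_div_two (by linarith) (by linarith) (by linarith [h.2])

theorem sin_mid {θ : ℝ} (h : θ ∈ Icc (5 * Real.pi / 6) (7 * Real.pi / 6)) :
    Real.sin θ ^ 2 ≤ 1 / 4 := by
  have hpi := Real.pi_pos
  rcases le_total θ Real.pi with h2 | h2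
  · have := sin_lo (θ := Real.pi - θ) ⟨by linarith, by linarith [h.1]⟩
    rwa [Real.sin_pi_sub] at this
  · have := sin_lo (θ := θ - Real.pi) ⟨by linarith, by linarith [h.2]⟩
    rwa [Real.sin_sub_pi, neg_sq] at this

theorem sin_neg_hi {θ : ℝ} (h : θ ∈ Icc (7 * Real.pi / 6) (11 * Real.pi / 6)) :
    Real.sin θ ≤ -(1 / 2) := by
  have := sin_hi (θ := θ - Real.pi) ⟨by linarith [h.1], by linarith [h.2]⟩
  rw [Real.sin_sub_pi] at this
  linarith

theorem sin_end {θ : ℝ} (h : θ ∈ Icc (11 * Real.pi / 6) (2 * Real.pi)) :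
    Real.sin θ ^ 2 ≤ 1 / 4 := by
  have := sin_lo (θ := 2 * Real.pi - θ) ⟨by linarith [h.2], by linarith [h.1]⟩
  rwa [Real.sin_two_pi_sub, neg_sq] at this

theorem kink (x₀ : ℂ) (σ ρ e : ℝ) (g Q : ℂ → ℂ → ℂ) (hρ : 0 < ρ) (hσ : 100 * ρ < σ)
    (he0 : 0 < e) (he : e ≤ 1 / 1000)
    (hg : DifferentiableOn ℂ (fun p : ℂ × ℂ => g p.1 p.2)
      {p | ‖p.2‖ < ρ ∧ ‖p.1 - x₀‖ < σ ∧ p.1.im < x₀.im - e * ρ})
    (hQ : DifferentiableOn ℂ (fun p : ℂ × ℂ => Q p.1 p.2) {p | ‖p.2‖ < ρ ∧ p.1.im < x₀.im - e * ρ})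
    (hfe : ∀ s w : ℂ, ‖w‖ < ρ → ‖s - x₀‖ < σ / 2 → s.im + |w.im| / 2 < x₀.im - e * ρ →
      Q (s + w / 2) w - Q (s - w / 2) w = w * g s w) :
    ∃ F : ℂ → ℂ, DifferentiableOn ℂ F (Metric.ball x₀ (ρ / 50)) ∧
      ∀ s ∈ Metric.ball x₀ (ρ / 50), s.im < x₀.im - e * ρ → F s = g s 0 := by
  have heρ : e * ρ ≤ ρ / 1000 := by nlinarith
  have heρ0 : 0 < e * ρ := by positivity
  set B : Set ℂ := {z | |z.re - x₀.re| < ρ ∧ x₀.im - ρ < z.im ∧ z.im < x₀.im + ρ / 50} with hB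
  have hBo : IsOpen B := by
    refine IsOpen.inter (s := {z : ℂ | |z.re - x₀.re| < ρ})
      (t := {z : ℂ | x₀.im - ρ < z.im ∧ z.im < x₀.im + ρ / 50}) ?_
      (IsOpen.inter (s := {z : ℂ | x₀.im - ρ < z.im}) (t := {z : ℂ | z.im < x₀.im + ρ / 50}) ?_ ?_)
    · exact isOpen_lt (Complex.continuous_re.sub continuous_const).abs continuous_const
    · exact isOpen_lt continuous_const Complex.continuous_im
    · exact isOpen_lt Complex.continuous_im continuous_const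
  set SQ : Set (ℂ × ℂ) := {p | ‖p.2‖ < ρ ∧ p.1.im < x₀.im - e * ρ} with hSQ
  set Sg : Set (ℂ × ℂ) := {p | ‖p.2‖ < ρ ∧ ‖p.1 - x₀‖ < σ ∧ p.1.im < x₀.im - e * ρ} with hSg
  have hcs := cs_cont ρ
  have hcw := cw_cont ρ
  have hdist : ∀ z ∈ B, ‖z - x₀‖ < 2 * ρ := by
    intro z hz
    have h1 := Complex.norm_le_abs_re_add_abs_im (z - x₀)
    rw [Complex.sub_re, Complex.sub_im] at h1
    have h2 : |z.im - x₀.im| < ρ := abs_lt.2 ⟨by linarith [hz.2.1], by linarith [hz.2.2]⟩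
    linarith [hz.1]
  -- membership facts
  have hm1 : ∀ z : ℂ, z.im < x₀.im + ρ / 50 → ∀ θ : ℝ, Real.sin θ ^ 2 ≤ 1 / 4 →
      (z + cs ρ θ, cw ρ θ) ∈ SQ := by
    intro z hz θ hθ
    refine ⟨by show ‖cw ρ θ‖ < ρ; rw [cw_norm hρ]; linarith, ?_⟩
    show (z + cs ρ θ).im < _
    rw [Complex.add_im, cs_im hρ]
    nlinarith
  have hm2 : ∀ z : ℂ, z.im < x₀.im + ρ / 50 → ∀ θ : ℝ, 1 / 2 ≤ Real.sin θ →
      (z + (cs ρ θ - cw ρ θ), cw ρ θ) ∈ SQ := by
    intro z hz θ hθ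
    refine ⟨by show ‖cw ρ θ‖ < ρ; rw [cw_norm hρ]; linarith, ?_⟩
    show (z + (cs ρ θ - cw ρ θ)).im < _
    rw [Complex.add_im, Complex.sub_im, cs_im hρ, cw_im]
    have h1 := Real.sin_le_one θ
    nlinarith [mul_nonneg (mul_nonneg hρ.le (sub_nonneg.2 hθ)) (sub_nonneg.2 h1)]
  have hm3 : ∀ z : ℂ, z.im < x₀.im + ρ / 50 → ∀ θ : ℝ, Real.sin θ ≤ -(1 / 2) →
      (z + (cs ρ θ + cw ρ θ), cw ρ θ) ∈ SQ := by
    intro z hz θ hθ
    refine ⟨by show ‖cw ρ θ‖ < ρ; rw [cw_norm hρ]; linarith, ?_⟩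
    show (z + (cs ρ θ + cw ρ θ)).im < _
    rw [Complex.add_im, Complex.add_im, cs_im hρ, cw_im]
    have h1 := Real.neg_one_le_sin θ
    nlinarith [mul_nonneg (mul_nonneg hρ.le (by linarith : (0:ℝ) ≤ -(1/2) - Real.sin θ))
      (by linarith : (0:ℝ) ≤ Real.sin θ + 1)]
  have hm2' : ∀ z : ℂ, ‖z - x₀‖ < 2 * ρ → z.im < x₀.im + ρ / 50 → ∀ θ : ℝ, 1 / 2 ≤ Real.sin θ →
      (z + (cs ρ θ - cw ρ θ / 2), cw ρ θ) ∈ Sg ∧ ‖z + (cs ρ θ - cw ρ θ / 2) - x₀‖ < σ / 2 := by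
    intro z hz' hz θ hθ
    have h5 : ‖z + (cs ρ θ - cw ρ θ / 2) - x₀‖ ≤ ‖z - x₀‖ + (ρ / 16 + ρ / 4) := by
      have h6 : z + (cs ρ θ - cw ρ θ / 2) - x₀ = (z - x₀) + (cs ρ θ - cw ρ θ / 2) := by ring
      rw [h6]
      refine (norm_add_le _ _).trans (add_le_add_right ?_ _)
      refine (norm_sub_le _ _).trans ?_
      rw [cs_norm hρ, norm_div, cw_norm hρ]
      norm_num
      linarith
    have h7 : ‖z + (cs ρ θ - cw ρ θ / 2) - x₀‖ < σ / 2 := by linarith
    refine ⟨⟨by show ‖cw ρ θ‖ < ρ; rw [cw_norm hρ]; linarith, by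
      show ‖z + (cs ρ θ - cw ρ θ / 2) - x₀‖ < σ
      linarith, ?_⟩, h7⟩
    show (z + (cs ρ θ - cw ρ θ / 2)).im < _
    have h8 : (cw ρ θ / 2).im = ρ / 4 * Real.sin θ := by
      rw [show cw ρ θ / 2 = ((1 / 2 : ℝ) : ℂ) * cw ρ θ by push_cast; ring, Complex.re_ofReal_mul
        |> fun _ => Complex.im_ofReal_mul, cw_im]
      ring
    rw [Complex.add_im, Complex.sub_im, cs_im hρ, h8]
    have h1 := Real.sin_le_one θ
    nlinarith [mul_nonneg (mul_nonneg hρ.le (sub_nonneg.2 hθ)) (sub_nonneg.2 h1)]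
  have hm3' : ∀ z : ℂ, ‖z - x₀‖ < 2 * ρ → z.im < x₀.im + ρ / 50 → ∀ θ : ℝ,
      Real.sin θ ≤ -(1 / 2) →
      (z + (cs ρ θ + cw ρ θ / 2), cw ρ θ) ∈ Sg ∧ ‖z + (cs ρ θ + cw ρ θ / 2) - x₀‖ < σ / 2 := by
    intro z hz' hz θ hθ
    have h5 : ‖z + (cs ρ θ + cw ρ θ / 2) - x₀‖ ≤ ‖z - x₀‖ + (ρ / 16 + ρ / 4) := by
      have h6 : z + (cs ρ θ + cw ρ θ / 2) - x₀ = (z - x₀) + (cs ρ θ + cw ρ θ / 2) := by ring
      rw [h6]
      refine (norm_add_le _ _).trans (add_le_add_right ?_ _)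
      refine (norm_add_le _ _).trans ?_
      rw [cs_norm hρ, norm_div, cw_norm hρ]
      norm_num
      linarith
    have h7 : ‖z + (cs ρ θ + cw ρ θ / 2) - x₀‖ < σ / 2 := by linarith
    refine ⟨⟨by show ‖cw ρ θ‖ < ρ; rw [cw_norm hρ]; linarith, by
      show ‖z + (cs ρ θ + cw ρ θ / 2) - x₀‖ < σ
      linarith, ?_⟩, h7⟩
    show (z + (cs ρ θ + cw ρ θ / 2)).im < _
    have h8 : (cw ρ θ / 2).im = ρ / 4 * Real.sin θ := by
      rw [show cw ρ θ / 2 = ((1 / 2 : ℝ) : ℂ) * cw ρ θ by push_cast; ring,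
        Complex.im_ofReal_mul, cw_im]
      ring
    rw [Complex.add_im, Complex.add_im, cs_im hρ, h8]
    have h1 := Real.neg_one_le_sin θ
    nlinarith [mul_nonneg (mul_nonneg hρ.le (by linarith : (0:ℝ) ≤ -(1/2) - Real.sin θ))
      (by linarith : (0:ℝ) ≤ Real.sin θ + 1)]
  have hpi := Real.pi_pos
  have a1 : (0:ℝ) ≤ Real.pi / 6 := by linarith
  have a2 : Real.pi / 6 ≤ 5 * Real.pi / 6 := by linarith
  have a3 : 5 * Real.pi / 6 ≤ 7 * Real.pi / 6 := by linarith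
  have a4 : 7 * Real.pi / 6 ≤ 11 * Real.pi / 6 := by linarith
  have a5 : 11 * Real.pi / 6 ≤ 2 * Real.pi := by linarith
  have hone : Continuous (fun _ : ℝ => (1 : ℂ)) := continuous_const
  have hc2 : Continuous (fun θ => cs ρ θ - cw ρ θ) := hcs.sub hcw
  have hc2' : Continuous (fun θ => cs ρ θ - cw ρ θ / 2) := hcs.sub (hcw.div_const 2)
  have hc4 : Continuous (fun θ => cs ρ θ + cw ρ θ) := hcs.add hcw
  have hc4' : Continuous (fun θ => cs ρ θ + cw ρ θ / 2) := hcs.add (hcw.div_const 2)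
  -- the six pieces
  set J1 : ℂ → ℂ := fun z => ∫ θ in (0:ℝ)..(Real.pi / 6), 1 * Q (z + cs ρ θ) (cw ρ θ) with hJ1
  set J2 : ℂ → ℂ := fun z => ∫ θ in (Real.pi / 6)..(5 * Real.pi / 6),
    1 * Q (z + (cs ρ θ - cw ρ θ)) (cw ρ θ) with hJ2
  set J2' : ℂ → ℂ := fun z => ∫ θ in (Real.pi / 6)..(5 * Real.pi / 6),
    cw ρ θ * g (z + (cs ρ θ - cw ρ θ / 2)) (cw ρ θ) with hJ2'
  set J3 : ℂ → ℂ := fun z => ∫ θ in (5 * Real.pi / 6)..(7 * Real.pi / 6),
    1 * Q (z + cs ρ θ) (cw ρ θ) with hJ3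
  set J4 : ℂ → ℂ := fun z => ∫ θ in (7 * Real.pi / 6)..(11 * Real.pi / 6),
    1 * Q (z + (cs ρ θ + cw ρ θ)) (cw ρ θ) with hJ4
  set J4' : ℂ → ℂ := fun z => ∫ θ in (7 * Real.pi / 6)..(11 * Real.pi / 6),
    cw ρ θ * g (z + (cs ρ θ + cw ρ θ / 2)) (cw ρ θ) with hJ4'
  set J5 : ℂ → ℂ := fun z => ∫ θ in (11 * Real.pi / 6)..(2 * Real.pi),
    1 * Q (z + cs ρ θ) (cw ρ θ) with hJ5
  have dJ1 : DifferentiableOn ℂ J1 B := diffOn_shift hBo a1 hQ hone hcs hcw
    (fun z hz θ hθ => hm1 z hz.2.2 θ (sin_lo hθ))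
  have dJ2 : DifferentiableOn ℂ J2 B := diffOn_shift hBo a2 hQ hone hc2 hcw
    (fun z hz θ hθ => hm2 z hz.2.2 θ (sin_hi hθ))
  have dJ2' : DifferentiableOn ℂ J2' B := diffOn_shift hBo a2 hg hcw hc2' hcw
    (fun z hz θ hθ => (hm2' z (hdist z hz) hz.2.2 θ (sin_hi hθ)).1)
  have dJ3 : DifferentiableOn ℂ J3 B := diffOn_shift hBo a3 hQ hone hcs hcw
    (fun z hz θ hθ => hm1 z hz.2.2 θ (sin_mid hθ))
  have dJ4 : DifferentiableOn ℂ J4 B := diffOn_shift hBo a4 hQ hone hc4 hcw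
    (fun z hz θ hθ => hm3 z hz.2.2 θ (sin_neg_hi hθ))
  have dJ4' : DifferentiableOn ℂ J4' B := diffOn_shift hBo a4 hg hcw hc4' hcw
    (fun z hz θ hθ => (hm3' z (hdist z hz) hz.2.2 θ (sin_neg_hi hθ)).1)
  have dJ5 : DifferentiableOn ℂ J5 B := diffOn_shift hBo a5 hQ hone hcs hcw
    (fun z hz θ hθ => hm1 z hz.2.2 θ (sin_end hθ))
  set R : ℂ → ℂ := fun z => (2 * Real.pi : ℂ)⁻¹ *
    (J1 z + (J2 z + J2' z) + J3 z + (J4 z - J4' z) + J5 z) with hR
  have dR : DifferentiableOn ℂ R B :=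
    (((((dJ1.add (dJ2.add dJ2')).add dJ3).add (dJ4.sub dJ4')).add dJ5).const_mul _)
  -- low values
  have hlow : ∀ z ∈ B, z.im < x₀.im - ρ / 10 → R z = Q z 0 := by
    intro z hz hzl
    have hzu : z.im < x₀.im + ρ / 50 := hz.2.2
    have hmem : ∀ θ : ℝ, (z + cs ρ θ, cw ρ θ) ∈ SQ := by
      intro θ
      refine ⟨by show ‖cw ρ θ‖ < ρ; rw [cw_norm hρ]; linarith, ?_⟩
      show (z + cs ρ θ).im < _
      rw [Complex.add_im, cs_im hρ]
      nlinarith [Real.sin_sq_le_one θ]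
    have I : ∀ a b : ℝ, a ≤ b → IntervalIntegrable (fun θ => 1 * Q (z + cs ρ θ) (cw ρ θ))
        volume a b := fun a b hab => integrable_shift hab hQ hone hcs hcw (fun θ _ => hmem θ)
    have e2 : J2 z + J2' z = ∫ θ in (Real.pi / 6)..(5 * Real.pi / 6),
        1 * Q (z + cs ρ θ) (cw ρ θ) := by
      rw [hJ2, hJ2']
      simp only
      rw [← intervalIntegral.integral_add
        (integrable_shift a2 hQ hone hc2 hcw
          (fun θ hθ => hm2 z hzu θ (sin_hi hθ)))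
        (integrable_shift a2 hg hcw hc2' hcw
          (fun θ hθ => (hm2' z (hdist z hz) hzu θ (sin_hi hθ)).1))]
      refine intervalIntegral.integral_congr fun θ hθ => ?_
      rw [uIcc_of_le a2] at hθ
      have hs := sin_hi hθ
      have h1 := hfe (z + (cs ρ θ - cw ρ θ / 2)) (cw ρ θ) (by rw [cw_norm hρ]; linarith)
        (hm2' z (hdist z hz) hzu θ hs).2 ?_
      · have h2 : z + (cs ρ θ - cw ρ θ / 2) + cw ρ θ / 2 = z + cs ρ θ := by ring
        have h3 : z + (cs ρ θ - cw ρ θ / 2) - cw ρ θ / 2 = z + (cs ρ θ - cw ρ θ) := by ring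
        rw [h2, h3] at h1
        rw [← h1]
        ring
      · have h8 : (cw ρ θ / 2).im = ρ / 4 * Real.sin θ := by
          rw [show cw ρ θ / 2 = ((1 / 2 : ℝ) : ℂ) * cw ρ θ by push_cast; ring,
            Complex.im_ofReal_mul, cw_im]
          ring
        have h9 := (hmem θ).2
        simp only [Complex.add_im, Complex.sub_im] at h9 ⊢
        rw [h8, cw_im, abs_of_nonneg (by nlinarith)]
        linarith
    have e4 : J4 z - J4' z = ∫ θ in (7 * Real.pi / 6)..(11 * Real.pi / 6),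
        1 * Q (z + cs ρ θ) (cw ρ θ) := by
      rw [hJ4, hJ4']
      simp only
      rw [← intervalIntegral.integral_sub
        (integrable_shift a4 hQ hone hc4 hcw
          (fun θ hθ => hm3 z hzu θ (sin_neg_hi hθ)))
        (integrable_shift a4 hg hcw hc4' hcw
          (fun θ hθ => (hm3' z (hdist z hz) hzu θ (sin_neg_hi hθ)).1))]
      refine intervalIntegral.integral_congr fun θ hθ => ?_
      rw [uIcc_of_le a4] at hθ
      have hs := sin_neg_hi hθ
      have h1 := hfe (z + (cs ρ θ + cw ρ θ / 2)) (cw ρ θ) (by rw [cw_norm hρ]; linarith)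
        (hm3' z (hdist z hz) hzu θ hs).2 ?_
      · have h2 : z + (cs ρ θ + cw ρ θ / 2) + cw ρ θ / 2 = z + (cs ρ θ + cw ρ θ) := by ring
        have h3 : z + (cs ρ θ + cw ρ θ / 2) - cw ρ θ / 2 = z + cs ρ θ := by ring
        rw [h2, h3] at h1
        rw [← h1]
        ring
      · have h8 : (cw ρ θ / 2).im = ρ / 4 * Real.sin θ := by
          rw [show cw ρ θ / 2 = ((1 / 2 : ℝ) : ℂ) * cw ρ θ by push_cast; ring,
            Complex.im_ofReal_mul, cw_im]
          ring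
        have h9 := (hmem θ).2
        simp only [Complex.add_im, Complex.sub_im] at h9 ⊢
        rw [h8, cw_im, abs_of_nonpos (by nlinarith)]
        linarith
    have etot : J1 z + (J2 z + J2' z) + J3 z + (J4 z - J4' z) + J5 z =
        ∫ θ in (0:ℝ)..(2 * Real.pi), 1 * Q (z + cs ρ θ) (cw ρ θ) := by
      rw [e2, e4, hJ1, hJ3, hJ5]
      simp only
      rw [intervalIntegral.integral_add_adjacent_intervals (I _ _ a1) (I _ _ a2),
        intervalIntegral.integral_add_adjacent_intervals (I _ _ (a1.trans a2)) (I _ _ a3),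
        intervalIntegral.integral_add_adjacent_intervals (I _ _ ((a1.trans a2).trans a3)) (I _ _ a4),
        intervalIntegral.integral_add_adjacent_intervals
          (I _ _ (((a1.trans a2).trans a3).trans a4)) (I _ _ a5)]
    -- mean value property
    have hmv : Real.circleAverage (fun w : ℂ => Q (z + (-Complex.I * w ^ 2 / (4 * ρ))) w) 0 (ρ / 2) =
        (fun w : ℂ => Q (z + (-Complex.I * w ^ 2 / (4 * ρ))) w) 0 := by
      refine DiffContOnCl.circleAverage ?_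
      rw [abs_of_pos (by linarith : (0:ℝ) < ρ / 2)]
      refine DifferentiableOn.diffContOnCl_ball (U := Metric.ball 0 (3 / 5 * ρ)) ?_ ?_
      · refine hQ.comp (f := fun w : ℂ => ((z + (-Complex.I * w ^ 2 / (4 * ρ)), w) : ℂ × ℂ))
          (Differentiable.differentiableOn (by fun_prop)) ?_
        intro w hw
        rw [mem_ball_zero_iff] at hw
        refine ⟨by show ‖w‖ < ρ; linarith, ?_⟩
        show (z + (-Complex.I * w ^ 2 / (4 * ρ))).im < _
        have h1 : |(-Complex.I * w ^ 2 / (4 * ρ)).im| ≤ 9 / 100 * ρ := by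
          refine (Complex.abs_im_le_norm _).trans ?_
          rw [norm_div, norm_mul, norm_neg, Complex.norm_I, norm_pow, norm_mul, Complex.norm_real,
            Real.norm_of_nonneg hρ.le]
          rw [div_le_iff₀ (by norm_num; exact hρ)]
          norm_num
          nlinarith [norm_nonneg w]
        rw [Complex.add_im]
        have h2 := (abs_le.1 h1).2
        linarith
      · exact Metric.closedBall_subset_ball (by linarith)
    rw [Real.circleAverage] at hmv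
    simp only [ne_eq, OfNat.ofNat_ne_zero, not_false_eq_true, zero_pow, mul_zero, zero_div,
      add_zero] at hmv
    rw [hR]
    simp only
    rw [etot, ← hmv]
    rw [Complex.real_smul]
    push_cast
    congr 1
    refine intervalIntegral.integral_congr fun θ _ => ?_
    simp only [one_mul]
    rfl
  -- the derivative of `Q` on the line `w = 0`
  have hder : ∀ s : ℂ, ‖s - x₀‖ < σ / 2 → s.im < x₀.im - e * ρ →
      HasDerivAt (fun s => Q s 0) (g s 0) s := by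
    intro s hs hsi
    have hSQo : IsOpen SQ := by
      refine IsOpen.inter (s := {p : ℂ × ℂ | ‖p.2‖ < ρ}) (t := {p : ℂ × ℂ | p.1.im < x₀.im - e * ρ})
        ?_ ?_
      · exact isOpen_lt continuous_snd.norm continuous_const
      · exact isOpen_lt (Complex.continuous_im.comp continuous_fst) continuous_const
    have hSgo : IsOpen Sg := by
      refine IsOpen.inter (s := {p : ℂ × ℂ | ‖p.2‖ < ρ})
        (t := {p : ℂ × ℂ | ‖p.1 - x₀‖ < σ ∧ p.1.im < x₀.im - e * ρ}) ?_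
        (IsOpen.inter (s := {p : ℂ × ℂ | ‖p.1 - x₀‖ < σ}) (t := {p : ℂ × ℂ | p.1.im < x₀.im - e * ρ})
          ?_ ?_)
      · exact isOpen_lt continuous_snd.norm continuous_const
      · exact isOpen_lt (continuous_fst.sub continuous_const).norm continuous_const
      · exact isOpen_lt (Complex.continuous_im.comp continuous_fst) continuous_const
    have hmQ : ((s, 0) : ℂ × ℂ) ∈ SQ := ⟨by show ‖(0:ℂ)‖ < ρ; simpa using hρ, hsi⟩
    have hmg : ((s, 0) : ℂ × ℂ) ∈ Sg := ⟨by show ‖(0:ℂ)‖ < ρ; simpa using hρ, by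
      show ‖s - x₀‖ < σ
      have := norm_nonneg (s - x₀)
      linarith, hsi⟩
    have fQ : HasFDerivAt (fun p : ℂ × ℂ => Q p.1 p.2)
        (fderiv ℂ (fun p : ℂ × ℂ => Q p.1 p.2) (s, 0)) (s, 0) :=
      (hQ.differentiableAt (hSQo.mem_nhds hmQ)).hasFDerivAt
    set L := fderiv ℂ (fun p : ℂ × ℂ => Q p.1 p.2) (s, 0) with hL
    have d1 : HasDerivAt (fun w : ℂ => Q (s + w / 2) w) (L (1 / 2, 1)) 0 := by
      have h1 : HasDerivAt (fun w : ℂ => ((s + w / 2, w) : ℂ × ℂ)) ((1 / 2, 1) : ℂ × ℂ) 0 := by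
        have := ((hasDerivAt_id (0:ℂ)).div_const 2).const_add s
        exact HasDerivAt.prodMk (by simpa using this) (hasDerivAt_id (0:ℂ))
      exact HasFDerivAt.comp_hasDerivAt_of_eq (0 : ℂ) fQ h1 (by simp)
    have d2 : HasDerivAt (fun w : ℂ => Q (s - w / 2) w) (L (-(1 / 2), 1)) 0 := by
      have h1 : HasDerivAt (fun w : ℂ => ((s - w / 2, w) : ℂ × ℂ)) ((-(1 / 2), 1) : ℂ × ℂ) 0 := by
        have := ((hasDerivAt_id (0:ℂ)).div_const 2).const_sub s
        exact HasDerivAt.prodMk (by simpa using this) (hasDerivAt_id (0:ℂ))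
      exact HasFDerivAt.comp_hasDerivAt_of_eq (0 : ℂ) fQ h1 (by simp)
    have d3 : HasDerivAt (fun w : ℂ => w * g s w) (g s 0) 0 := by
      have h1 : DifferentiableAt ℂ (fun w : ℂ => g s w) 0 := by
        have h2 : DifferentiableAt ℂ (fun p : ℂ × ℂ => g p.1 p.2) (s, (0:ℂ)) :=
          hg.differentiableAt (hSgo.mem_nhds hmg)
        exact DifferentiableAt.comp (0:ℂ) (g := fun p : ℂ × ℂ => g p.1 p.2)
          (f := fun w : ℂ => ((s, w) : ℂ × ℂ)) h2 (by fun_prop)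
      have := (hasDerivAt_id' (0:ℂ)).fun_mul h1.hasDerivAt
      simpa using this
    have d4 : HasDerivAt (fun w : ℂ => Q (s + w / 2) w - Q (s - w / 2) w)
        (L (1 / 2, 1) - L (-(1 / 2), 1)) 0 := d1.sub d2
    have hev : (fun w : ℂ => Q (s + w / 2) w - Q (s - w / 2) w) =ᶠ[𝓝 0] fun w => w * g s w := by
      have h1 : ∀ᶠ w : ℂ in 𝓝 0, ‖w‖ < ρ := by
        have : Tendsto (fun w : ℂ => ‖w‖) (𝓝 0) (𝓝 0) := by
          simpa using (continuous_norm (E := ℂ)).tendsto 0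
        exact this.eventually (gt_mem_nhds hρ)
      have h2 : ∀ᶠ w : ℂ in 𝓝 0, s.im + |w.im| / 2 < x₀.im - e * ρ := by
        have : Tendsto (fun w : ℂ => s.im + |w.im| / 2) (𝓝 0) (𝓝 (s.im + |(0:ℂ).im| / 2)) :=
          (Continuous.tendsto (by fun_prop) 0)
        refine this.eventually (gt_mem_nhds ?_)
        simpa using hsi
      filter_upwards [h1, h2] with w hw1 hw2
      exact hfe s w hw1 hs hw2
    have e1 : L (1 / 2, 1) - L (-(1 / 2), 1) = g s 0 := by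
      have := (d4.congr_of_eventuallyEq hev.symm).unique d3
      exact this
    have e2 : L (1, 0) = g s 0 := by
      rw [← e1, ← map_sub]
      congr 1
      norm_num
    have h1 : HasDerivAt (fun z : ℂ => ((z, 0) : ℂ × ℂ)) ((1, 0) : ℂ × ℂ) s :=
      HasDerivAt.prodMk (hasDerivAt_id s) (hasDerivAt_const s (0:ℂ))
    have h2 := HasFDerivAt.comp_hasDerivAt s fQ h1
    rw [← e2]
    exact h2
  refine ⟨deriv R, (dR.deriv hBo).mono ?_, ?_⟩
  · intro z hz
    rw [Metric.mem_ball, dist_eq_norm] at hz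
    have h1 := Complex.abs_re_le_norm (z - x₀)
    have h2 := Complex.abs_im_le_norm (z - x₀)
    rw [Complex.sub_re] at h1
    rw [Complex.sub_im] at h2
    have h3 := abs_le.1 h2
    exact ⟨by linarith, by linarith [h3.1], by linarith [h3.2]⟩
  · intro s hs hsi
    -- the lower box
    set B' : Set ℂ := {z | |z.re - x₀.re| < ρ ∧ x₀.im - ρ < z.im ∧ z.im < x₀.im - e * ρ} with hB'
    have hB'o : IsOpen B' := by
      refine IsOpen.inter (s := {z : ℂ | |z.re - x₀.re| < ρ})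
        (t := {z : ℂ | x₀.im - ρ < z.im ∧ z.im < x₀.im - e * ρ}) ?_
        (IsOpen.inter (s := {z : ℂ | x₀.im - ρ < z.im}) (t := {z : ℂ | z.im < x₀.im - e * ρ}) ?_ ?_)
      · exact isOpen_lt (Complex.continuous_re.sub continuous_const).abs continuous_const
      · exact isOpen_lt continuous_const Complex.continuous_im
      · exact isOpen_lt Complex.continuous_im continuous_const
    have hB'c : Convex ℝ B' := by
      have c1 : Convex ℝ {z : ℂ | |z.re - x₀.re| < ρ} := by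
        have : {z : ℂ | |z.re - x₀.re| < ρ} =
            {z : ℂ | x₀.re - ρ < z.re} ∩ {z : ℂ | z.re < x₀.re + ρ} := by
          ext z
          simp only [mem_setOf_eq, mem_inter_iff, abs_lt]
          constructor
          · intro h; constructor <;> linarith [h.1, h.2]
          · intro h; constructor <;> linarith [h.1, h.2]
        rw [this]
        exact (convex_halfSpace_re_gt _).inter (convex_halfSpace_re_lt _)
      exact c1.inter ((convex_halfSpace_im_gt _).inter (convex_halfSpace_im_lt _))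
    have hsub : B' ⊆ B := fun z hz => ⟨hz.1, hz.2.1, by linarith [hz.2.2]⟩
    have hdist' : ∀ z ∈ B', ‖z - x₀‖ < σ / 2 := fun z hz => by
      have := hdist z (hsub hz)
      linarith
    have dQ0 : DifferentiableOn ℂ (fun s => Q s 0) B' := fun z hz =>
      (hder z (hdist' z hz) hz.2.2).differentiableAt.differentiableWithinAt
    have hEq : EqOn R (fun s => Q s 0) B' := by
      have hz₁ : (⟨x₀.re, x₀.im - ρ / 2⟩ : ℂ) ∈ B' := by
        refine ⟨?_, ?_, ?_⟩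
        · show |x₀.re - x₀.re| < ρ
          simpa using hρ
        · show x₀.im - ρ < x₀.im - ρ / 2
          linarith
        · show x₀.im - ρ / 2 < x₀.im - e * ρ
          linarith
      refine AnalyticOnNhd.eqOn_of_preconnected_of_eventuallyEq
        ((dR.mono hsub).analyticOnNhd hB'o) (dQ0.analyticOnNhd hB'o) hB'c.isPreconnected hz₁ ?_
      have h1 : ∀ᶠ z : ℂ in 𝓝 (⟨x₀.re, x₀.im - ρ / 2⟩ : ℂ), z ∈ B' := hB'o.mem_nhds hz₁
      have h2 : ∀ᶠ z : ℂ in 𝓝 (⟨x₀.re, x₀.im - ρ / 2⟩ : ℂ), z.im < x₀.im - ρ / 10 := by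
        refine (Complex.continuous_im.tendsto _).eventually (gt_mem_nhds ?_)
        show x₀.im - ρ / 2 < x₀.im - ρ / 10
        linarith
      filter_upwards [h1, h2] with z hz1 hz2
      exact hlow z (hsub hz1) hz2
    have hsB' : s ∈ B' := by
      rw [Metric.mem_ball, dist_eq_norm] at hs
      have h1 := Complex.abs_re_le_norm (s - x₀)
      have h2 := Complex.abs_im_le_norm (s - x₀)
      rw [Complex.sub_re] at h1
      rw [Complex.sub_im] at h2
      have h3 := abs_le.1 h2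
      exact ⟨by linarith, by linarith [h3.1], hsi⟩
    have h4 : R =ᶠ[𝓝 s] fun s => Q s 0 := by
      filter_upwards [hB'o.mem_nhds hsB'] with z hz
      exact hEq hz
    rw [h4.deriv_eq]
    exact (hder s (hdist' s hsB') hsi).deriv

end Vale.Agent.P097.H490
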