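import Vale.Agent.P097.LR.Defs
import Vale.Agent.P097.H490.Kink

/-! # P097 / H490 : [K0] -/

namespace Vale.Agent.P097.H490

open Vale.Agent.P097

theorem k0 : LR.K0 := by
  intro x₀ σ ρ g Q hρ hσ hg hQ hfe
  exact kink x₀ σ ρ LR.eps g Q hρ hσ (by unfold LR.eps; norm_num) (by unfold LR.eps; norm_num)
    hg hQ hfe

end Vale.Agent.P097.H490
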