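import Vale.Agent.P097.H490.Quot

/-! # P097 / H490 : the V-lemma -/

set_option linter.all false

open Complex Set Filter Topology MeasureTheory

namespace Vale.Agent.P097.H490

/-- the region of pairs -/
def RGs (κ β ρ : ℝ) : Set (ℂ × ℂ) :=
  {p | ‖p.2‖ < ρ ∧ -κ < p.1.im ∧ p.1.im + |p.2.im| / 2 < β}

theorem isOpen_RGs (κ β ρ : ℝ) : IsOpen (RGs κ β ρ) := by
  refine IsOpen.inter (s := {p : ℂ × ℂ | ‖p.2‖ < ρ})
    (t := {p : ℂ × ℂ | -κ < p.1.im ∧ p.1.im + |p.2.im| / 2 < β}) ?_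
    (IsOpen.inter (s := {p : ℂ × ℂ | -κ < p.1.im})
      (t := {p : ℂ × ℂ | p.1.im + |p.2.im| / 2 < β}) ?_ ?_)
  · exact isOpen_lt continuous_snd.norm continuous_const
  · exact isOpen_lt continuous_const (Complex.continuous_im.comp continuous_fst)
  · exact isOpen_lt ((Complex.continuous_im.comp continuous_fst).add
      ((Complex.continuous_im.comp continuous_snd).abs.div_const 2)) continuous_const

section
variable {κ β ρ M : ℝ} {G : ℂ → ℂ → ℂ}

/-- numerator -/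
noncomputable def An (G : ℂ → ℂ → ℂ) (n : ℕ) (w : ℂ) : ℂ :=
  w * fc (fun t => G t w) (-((n + 1 : ℕ) : ℤ))

/-- denominator -/
noncomputable def Bn (n : ℕ) (w : ℂ) : ℂ := 2 * I * Complex.sin (Real.pi * (((n + 1 : ℕ) : ℂ) * w))

theorem Bn_diff (n : ℕ) : Differentiable ℂ (Bn n) := by
  unfold Bn
  fun_prop

theorem Bn_deriv (n : ℕ) (w : ℂ) : deriv (Bn n) w =
    2 * I * (Complex.cos (Real.pi * (((n + 1 : ℕ) : ℂ) * w)) * (Real.pi * ((n + 1 : ℕ) : ℂ))) := by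
  have h1 : HasDerivAt (fun w : ℂ => (Real.pi * (((n + 1 : ℕ) : ℂ) * w) : ℂ))
      (Real.pi * ((n + 1 : ℕ) : ℂ)) w := by
    have := ((hasDerivAt_id w).const_mul (((n + 1 : ℕ) : ℂ))).const_mul (Real.pi : ℂ)
    simpa using this
  exact (h1.csin.const_mul (2 * I)).deriv

theorem Bn_deriv_ne (n : ℕ) {w : ℂ} (h : Bn n w = 0) : deriv (Bn n) w ≠ 0 := by
  rw [Bn_deriv]
  have hs : Complex.sin (Real.pi * (((n + 1 : ℕ) : ℂ) * w)) = 0 := by
    unfold Bn at h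
    rcases mul_eq_zero.1 h with h1 | h1
    · exfalso
      rcases mul_eq_zero.1 h1 with h2 | h2
      · norm_num at h2
      · exact I_ne_zero h2
    · exact h1
  have hc : Complex.cos (Real.pi * (((n + 1 : ℕ) : ℂ) * w)) ≠ 0 := by
    intro hc
    have := Complex.sin_sq_add_cos_sq (Real.pi * (((n + 1 : ℕ) : ℂ) * w))
    rw [hs, hc] at this
    norm_num at this
  have hn : ((n + 1 : ℕ) : ℂ) ≠ 0 := by exact_mod_cast Nat.succ_ne_zero n
  have hpi : (Real.pi : ℂ) ≠ 0 := by exact_mod_cast Real.pi_ne_zero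
  exact mul_ne_zero (mul_ne_zero two_ne_zero I_ne_zero) (mul_ne_zero hc (mul_ne_zero hpi hn))

theorem fc_diff (hκ : 0 < κ) (hρ : 0 < ρ) (hβ : ρ ≤ β)
    (hG : DifferentiableOn ℂ (fun p : ℂ × ℂ => G p.1 p.2) (RGs κ β ρ)) (N : ℤ) :
    DifferentiableOn ℂ (fun w => fc (fun t => G t w) N) (Metric.ball 0 ρ) := by
  have hmem : ∀ w ∈ Metric.ball (0:ℂ) ρ, ∀ x : ℝ, ((x : ℂ), w) ∈ RGs κ β ρ := by
    intro w hw x
    rw [mem_ball_zero_iff] at hw
    refine ⟨hw, ?_, ?_⟩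
    · show -κ < (x : ℂ).im
      rw [Complex.ofReal_im]; linarith
    · show (x : ℂ).im + |w.im| / 2 < β
      rw [Complex.ofReal_im]
      have := Complex.abs_im_le_norm w
      have h0 := abs_nonneg w.im
      linarith
  refine diffOn_integral Metric.isOpen_ball zero_le_one (Φ := fun w x => G x w *
    Complex.exp (-(2 * Real.pi * Complex.I * N * x))) ?_ ?_
  · refine ContinuousOn.mul ?_ (Continuous.continuousOn (by fun_prop))
    exact hG.continuousOn.comp (f := fun p : ℂ × ℝ => (((p.2 : ℝ) : ℂ), p.1))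
      (Continuous.continuousOn (by fun_prop)) (fun p hp => hmem p.1 hp.1 p.2)
  · intro x _
    refine DifferentiableOn.mul_const ?_ _
    exact hG.comp (f := fun w : ℂ => ((x : ℂ), w)) (Differentiable.differentiableOn (by fun_prop))
      (fun w hw => hmem w hw x)

theorem strip_of (hκ : 0 < κ) (hρ : 0 < ρ) (hβ : ρ ≤ β)
    (hG : DifferentiableOn ℂ (fun p : ℂ × ℂ => G p.1 p.2) (RGs κ β ρ))
    (hM : ∀ p ∈ RGs κ β ρ, ‖G p.1 p.2‖ ≤ M)
    (hper : ∀ t w : ℂ, (t, w) ∈ RGs κ β ρ → G (t + 1) w = G t w) {w : ℂ} (hw : ‖w‖ < ρ) :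
    DifferentiableOn ℂ (fun t => G t w) (Str (-κ) (β - |w.im| / 2)) ∧
    (∀ t ∈ Str (-κ) (β - |w.im| / 2), G (t + 1) w = G t w) ∧
    (∀ t ∈ Str (-κ) (β - |w.im| / 2), ‖G t w‖ ≤ M) ∧ 0 < β - |w.im| / 2 := by
  have hmem : ∀ t ∈ Str (-κ) (β - |w.im| / 2), (t, w) ∈ RGs κ β ρ := by
    intro t ht
    refine ⟨hw, ht.1, ?_⟩
    show t.im + |w.im| / 2 < β
    linarith [ht.2]
  refine ⟨?_, fun t ht => hper t w (hmem t ht), fun t ht => hM (t, w) (hmem t ht), ?_⟩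
  · exact hG.comp (f := fun t : ℂ => (t, w)) (Differentiable.differentiableOn (by fun_prop))
      (fun t ht => hmem t ht)
  · have := Complex.abs_im_le_norm w
    have h0 := abs_nonneg w.im
    linarith

theorem An_zero (hκ : 0 < κ)
    (hvan : ∀ n : ℕ, 0 < n → ∀ p : ℤ, p ≠ 0 → |(p : ℝ) / n| < ρ →
      ∫ t in (0 : ℝ)..1, G t ((p : ℝ) / n : ℝ) *
        Complex.exp (2 * Real.pi * Complex.I * n * t) = 0) (n : ℕ) {w : ℂ} (hw : ‖w‖ < ρ)
    (hB : Bn n w = 0) : An G n w = 0 := by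
  have hs : Complex.sin (Real.pi * (((n + 1 : ℕ) : ℂ) * w)) = 0 := by
    unfold Bn at hB
    rcases mul_eq_zero.1 hB with h1 | h1
    · exfalso
      rcases mul_eq_zero.1 h1 with h2 | h2
      · norm_num at h2
      · exact I_ne_zero h2
    · exact h1
  rw [Complex.sin_eq_zero_iff] at hs
  obtain ⟨k, hk⟩ := hs
  have hn : ((n + 1 : ℕ) : ℂ) ≠ 0 := by exact_mod_cast Nat.succ_ne_zero n
  have hpi : (Real.pi : ℂ) ≠ 0 := by exact_mod_cast Real.pi_ne_zero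
  have hw' : w = (((k : ℝ) / ((n + 1 : ℕ) : ℝ) : ℝ) : ℂ) := by
    push_cast
    have h1 : ((n + 1 : ℕ) : ℂ) * w = k := by
      have := hk
      rw [mul_comm (k : ℂ)] at this
      exact mul_left_cancel₀ hpi this
    push_cast at h1 hn
    rw [eq_div_iff hn, mul_comm]
    exact h1
  unfold An
  by_cases hk0 : k = 0
  · rw [hw', hk0]; simp
  · have h1 := hvan (n + 1) (Nat.succ_pos n) k hk0 (by
      rw [hw', Complex.norm_real, Real.norm_eq_abs] at hw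
      exact hw)
    have h2 : fc (fun t => G t w) (-((n + 1 : ℕ) : ℤ)) = 0 := by
      unfold fc
      rw [← h1]
      refine intervalIntegral.integral_congr fun x _ => ?_
      show G x w * _ = G x _ * _
      rw [← hw']
      congr 2
      push_cast
      ring
    rw [h2, mul_zero]

theorem q_diff (hκ : 0 < κ) (hρ : 0 < ρ) (hβ : ρ ≤ β)
    (hG : DifferentiableOn ℂ (fun p : ℂ × ℂ => G p.1 p.2) (RGs κ β ρ))
    (hvan : ∀ n : ℕ, 0 < n → ∀ p : ℤ, p ≠ 0 → |(p : ℝ) / n| < ρ →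
      ∫ t in (0 : ℝ)..1, G t ((p : ℝ) / n : ℝ) *
        Complex.exp (2 * Real.pi * Complex.I * n * t) = 0) (n : ℕ) :
    DifferentiableOn ℂ (quo (An G n) (Bn n)) (Metric.ball 0 ρ) := by
  refine quo_diff Metric.isOpen_ball ?_ (Bn_diff n).differentiableOn ?_ ?_
  · exact differentiableOn_id.mul (fc_diff hκ hρ hβ hG _)
  · intro w hw hB
    exact An_zero hκ hvan n (mem_ball_zero_iff.1 hw) hB
  · intro w _ hB
    exact Bn_deriv_ne n hB

theorem q_bound_big (hκ : 0 < κ) (hρ : 0 < ρ) (hβ : 2 * ρ ≤ β)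
    (hG : DifferentiableOn ℂ (fun p : ℂ × ℂ => G p.1 p.2) (RGs κ β (2 * ρ)))
    (hM : ∀ p ∈ RGs κ β (2 * ρ), ‖G p.1 p.2‖ ≤ M)
    (hper : ∀ t w : ℂ, (t, w) ∈ RGs κ β (2 * ρ) → G (t + 1) w = G t w)
    (hvan : ∀ n : ℕ, 0 < n → ∀ p : ℤ, p ≠ 0 → |(p : ℝ) / n| < 2 * ρ →
      ∫ t in (0 : ℝ)..1, G t ((p : ℝ) / n : ℝ) *
        Complex.exp (2 * Real.pi * Complex.I * n * t) = 0) (n : ℕ)
    (hn : 1 ≤ ((n + 1 : ℕ) : ℝ) * ρ) {w : ℂ} (hw : ‖w‖ ≤ ρ) :
    ‖quo (An G n) (Bn n) w‖ ≤ 4 * ρ * M * Real.exp (-(2 * Real.pi * ((n + 1 : ℕ) : ℝ) * β)) := by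
  have hβ0 : 0 < β := by linarith
  have hM0 : 0 ≤ M := by
    refine (norm_nonneg _).trans (hM ((0:ℂ), (0:ℂ)) ⟨?_, ?_, ?_⟩)
    · show ‖(0:ℂ)‖ < 2 * ρ
      simpa using hρ
    · show -κ < (0:ℂ).im
      simpa using hκ
    · show (0:ℂ).im + |(0:ℂ).im| / 2 < β
      simpa using hβ0
  obtain ⟨m, hm1, hm2⟩ := exists_half hρ hn
  set r : ℝ := ((m : ℝ) + 1 / 2) / ((n + 1 : ℕ) : ℝ) with hr
  have hN0 : (0:ℝ) < ((n + 1 : ℕ) : ℝ) := by exact_mod_cast Nat.succ_pos n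
  have hr0 : 0 < r := by positivity
  have hdq := q_diff hκ (by linarith : 0 < 2 * ρ) hβ hG hvan n
  refine Complex.norm_le_of_forall_mem_frontier_norm_le (U := Metric.ball (0:ℂ) r)
    Metric.isBounded_ball ?_ ?_ ?_
  · exact hdq.diffContOnCl_ball (Metric.closedBall_subset_ball hm2)
  · intro z hz
    rw [frontier_ball _ hr0.ne', mem_sphere_zero_iff_norm] at hz
    have hz2 : ‖z‖ < 2 * ρ := by rw [hz]; exact hm2
    have hζ : ‖((n + 1 : ℕ) : ℂ) * z‖ = (m : ℝ) + 1 / 2 := by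
      rw [norm_mul, Complex.norm_natCast, hz, hr]
      field_simp
    have hs := sin_lower hζ
    have him : (((n + 1 : ℕ) : ℂ) * z).im = ((n + 1 : ℕ) : ℝ) * z.im := by
      have : (((n + 1 : ℕ) : ℂ) * z) = ((((n + 1 : ℕ) : ℝ)) : ℂ) * z := by push_cast; ring
      rw [this, Complex.im_ofReal_mul]
    rw [him, abs_mul, abs_of_pos hN0] at hs
    have hBn : 1 / 2 * Real.exp (Real.pi * (((n + 1 : ℕ) : ℝ) * |z.im|)) ≤ ‖Bn n z‖ := by
      unfold Bn
      rw [norm_mul, norm_mul, Complex.norm_I]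
      norm_num at hs ⊢
      linarith
    have hBne : Bn n z ≠ 0 := by
      intro h
      rw [h, norm_zero] at hBn
      have := Real.exp_pos (Real.pi * (((n + 1 : ℕ) : ℝ) * |z.im|))
      linarith
    obtain ⟨h1, h2, h3, h4⟩ := strip_of hκ (by linarith : 0 < 2 * ρ) hβ hG hM hper hz2
    have hfc := fc_bound_b (neg_lt_zero.2 hκ) h4 h1 h2 h3 (-((n + 1 : ℕ) : ℤ))
    have hA : ‖An G n z‖ ≤ 2 * ρ * (M * Real.exp (2 * Real.pi * ((-((n + 1 : ℕ) : ℤ) : ℤ) : ℝ) *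
        (β - |z.im| / 2))) := by
      unfold An
      rw [norm_mul]
      exact mul_le_mul hz2.le hfc (norm_nonneg _) (by linarith)
    have hq : quo (An G n) (Bn n) z = An G n z / Bn n z := by simp [quo, hBne]
    rw [hq, norm_div, div_le_iff₀ (norm_pos_iff.2 hBne)]
    refine hA.trans ?_
    have e1 : (2 * Real.pi * ((-((n + 1 : ℕ) : ℤ) : ℤ) : ℝ) * (β - |z.im| / 2)) =
        -(2 * Real.pi * ((n + 1 : ℕ) : ℝ) * β) + Real.pi * (((n + 1 : ℕ) : ℝ) * |z.im|) := by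
      push_cast
      ring
    rw [e1, Real.exp_add]
    have hc : 0 ≤ 4 * ρ * M * Real.exp (-(2 * Real.pi * ((n + 1 : ℕ) : ℝ) * β)) := by positivity
    calc 2 * ρ * (M * (Real.exp (-(2 * Real.pi * ((n + 1 : ℕ) : ℝ) * β)) *
          Real.exp (Real.pi * (((n + 1 : ℕ) : ℝ) * |z.im|))))
        = (4 * ρ * M * Real.exp (-(2 * Real.pi * ((n + 1 : ℕ) : ℝ) * β))) *
          (1 / 2 * Real.exp (Real.pi * (((n + 1 : ℕ) : ℝ) * |z.im|))) := by ring
      _ ≤ _ := mul_le_mul_of_nonneg_left hBn hc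
  · rw [closure_ball _ hr0.ne', mem_closedBall_zero_iff]
    exact hw.trans hm1

theorem q_bound (hκ : 0 < κ) (hρ : 0 < ρ) (hβ : 2 * ρ ≤ β)
    (hG : DifferentiableOn ℂ (fun p : ℂ × ℂ => G p.1 p.2) (RGs κ β (2 * ρ)))
    (hM : ∀ p ∈ RGs κ β (2 * ρ), ‖G p.1 p.2‖ ≤ M)
    (hper : ∀ t w : ℂ, (t, w) ∈ RGs κ β (2 * ρ) → G (t + 1) w = G t w)
    (hvan : ∀ n : ℕ, 0 < n → ∀ p : ℤ, p ≠ 0 → |(p : ℝ) / n| < 2 * ρ →
      ∫ t in (0 : ℝ)..1, G t ((p : ℝ) / n : ℝ) *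
        Complex.exp (2 * Real.pi * Complex.I * n * t) = 0) :
    ∃ C : ℝ, 0 ≤ C ∧ ∀ (n : ℕ) (w : ℂ), ‖w‖ ≤ ρ →
      ‖quo (An G n) (Bn n) w‖ ≤ C * Real.exp (-(2 * Real.pi * ((n + 1 : ℕ) : ℝ) * β)) := by
  obtain ⟨n₀, hn₀⟩ := exists_nat_gt (1 / ρ)
  have hex : ∀ n : ℕ, ∃ K : ℝ, ∀ w : ℂ, ‖w‖ ≤ ρ → ‖quo (An G n) (Bn n) w‖ ≤ K := by
    intro n
    obtain ⟨K, hK⟩ := (isCompact_closedBall (0:ℂ) ρ).exists_bound_of_continuousOn
      (((q_diff hκ (by linarith : 0 < 2 * ρ) hβ hG hvan n).mono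
        (Metric.closedBall_subset_ball (by linarith : ρ < 2 * ρ))).continuousOn)
    exact ⟨K, fun w hw => hK w (mem_closedBall_zero_iff.2 hw)⟩
  choose K hK using hex
  have hK0 : ∀ n, 0 ≤ K n := fun n => (norm_nonneg _).trans (hK n 0 (by simpa using hρ.le))
  refine ⟨|4 * ρ * M| + ∑ n ∈ Finset.range n₀,
    K n * Real.exp (2 * Real.pi * ((n + 1 : ℕ) : ℝ) * β), ?_, ?_⟩
  · refine add_nonneg (abs_nonneg _) (Finset.sum_nonneg fun n _ => ?_)
    exact mul_nonneg (hK0 n) (Real.exp_pos _).le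
  · intro n w hw
    have hs0 : 0 ≤ ∑ n ∈ Finset.range n₀, K n * Real.exp (2 * Real.pi * ((n + 1 : ℕ) : ℝ) * β) :=
      Finset.sum_nonneg fun n _ => mul_nonneg (hK0 n) (Real.exp_pos _).le
    by_cases hn : n < n₀
    · have h1 : K n * Real.exp (2 * Real.pi * ((n + 1 : ℕ) : ℝ) * β) ≤
          ∑ n ∈ Finset.range n₀, K n * Real.exp (2 * Real.pi * ((n + 1 : ℕ) : ℝ) * β) :=
        Finset.single_le_sum (f := fun n => K n * Real.exp (2 * Real.pi * ((n + 1 : ℕ) : ℝ) * β))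
          (fun n _ => mul_nonneg (hK0 n) (Real.exp_pos _).le) (Finset.mem_range.2 hn)
      calc ‖quo (An G n) (Bn n) w‖ ≤ K n := hK n w hw
        _ = (K n * Real.exp (2 * Real.pi * ((n + 1 : ℕ) : ℝ) * β)) *
            Real.exp (-(2 * Real.pi * ((n + 1 : ℕ) : ℝ) * β)) := by
          rw [mul_assoc, ← Real.exp_add, add_neg_cancel, Real.exp_zero, mul_one]
        _ ≤ _ := by
          refine mul_le_mul_of_nonneg_right ?_ (Real.exp_pos _).le
          have := abs_nonneg (4 * ρ * M)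
          linarith
    · have hn' : 1 ≤ ((n + 1 : ℕ) : ℝ) * ρ := by
        have h1 : (n₀ : ℝ) ≤ ((n + 1 : ℕ) : ℝ) := by exact_mod_cast (by omega : n₀ ≤ n + 1)
        have h2 : 1 / ρ < ((n + 1 : ℕ) : ℝ) := lt_of_lt_of_le hn₀ h1
        rw [div_lt_iff₀ hρ] at h2
        exact h2.le
      refine (q_bound_big hκ hρ hβ hG hM hper hvan n hn' hw).trans ?_
      refine mul_le_mul_of_nonneg_right ?_ (Real.exp_pos _).le
      have := le_abs_self (4 * ρ * M)
      linarith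

theorem vcore (hκ : 0 < κ) (hρ : 0 < ρ) (hβ : 2 * ρ ≤ β)
    (hG : DifferentiableOn ℂ (fun p : ℂ × ℂ => G p.1 p.2) (RGs κ β (2 * ρ)))
    (hM : ∀ p ∈ RGs κ β (2 * ρ), ‖G p.1 p.2‖ ≤ M)
    (hper : ∀ t w : ℂ, (t, w) ∈ RGs κ β (2 * ρ) → G (t + 1) w = G t w)
    (hvan : ∀ n : ℕ, 0 < n → ∀ p : ℤ, p ≠ 0 → |(p : ℝ) / n| < 2 * ρ →
      ∫ t in (0 : ℝ)..1, G t ((p : ℝ) / n : ℝ) *
        Complex.exp (2 * Real.pi * Complex.I * n * t) = 0) :
    ∃ H Q : ℂ → ℂ → ℂ,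
      DifferentiableOn ℂ (fun p : ℂ × ℂ => H p.1 p.2) {p | ‖p.2‖ < ρ ∧ -κ < p.1.im} ∧
      DifferentiableOn ℂ (fun p : ℂ × ℂ => Q p.1 p.2) {p | ‖p.2‖ < ρ ∧ p.1.im < β} ∧
      ∀ s w : ℂ, ‖w‖ < ρ → -κ < s.im → s.im + |w.im| / 2 < β →
        Q (s + w / 2) w - Q (s - w / 2) w = w * (G s w - H s w) := by
  obtain ⟨C, hC0, hC⟩ := q_bound hκ hρ hβ hG hM hper hvan
  have h2ρ : 0 < 2 * ρ := by linarith
  set H : ℂ → ℂ → ℂ := fun t w => ∑' n : ℕ, fc (fun t => G t w) (n : ℤ) *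
    Complex.exp (2 * Real.pi * Complex.I * n * t) with hH
  set Q : ℂ → ℂ → ℂ := fun s w => ∑' n : ℕ, -(quo (An G n) (Bn n) w) *
    Complex.exp (-(2 * Real.pi * Complex.I * ((n + 1 : ℕ) : ℂ) * s)) with hQ
  have hQb : ∀ (n : ℕ) (s w : ℂ), ‖w‖ ≤ ρ → ‖-(quo (An G n) (Bn n) w) *
      Complex.exp (-(2 * Real.pi * Complex.I * ((n + 1 : ℕ) : ℂ) * s))‖ ≤
      C * Real.exp (-(2 * Real.pi * (β - s.im))) ^ (n + 1) := by
    intro n s w hw
    have h1 := norm_exp_str ((n + 1 : ℕ) : ℤ) s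
    have h2 : (-(2 * Real.pi * Complex.I * ((((n + 1 : ℕ) : ℤ) : ℤ) : ℂ) * s)) =
      -(2 * Real.pi * Complex.I * ((n + 1 : ℕ) : ℂ) * s) := by push_cast; ring
    rw [h2] at h1
    rw [norm_mul, norm_neg, h1]
    calc ‖quo (An G n) (Bn n) w‖ * Real.exp (2 * Real.pi * (((n + 1 : ℕ) : ℤ) : ℝ) * s.im)
        ≤ (C * Real.exp (-(2 * Real.pi * ((n + 1 : ℕ) : ℝ) * β))) *
          Real.exp (2 * Real.pi * (((n + 1 : ℕ) : ℤ) : ℝ) * s.im) :=
          mul_le_mul_of_nonneg_right (hC n w hw) (Real.exp_pos _).le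
      _ = _ := by
        rw [mul_assoc, ← Real.exp_add, ← Real.exp_nat_mul]
        congr 2
        push_cast
        ring
  refine ⟨H, Q, ?_, ?_, ?_⟩
  · -- `H`
    intro p₀ hp₀
    apply DifferentiableAt.differentiableWithinAt
    set ε : ℝ := (p₀.1.im + κ) / 2 with hε
    have hε0 : 0 < ε := by have := hp₀.2; simp only [hε]; linarith
    set U : Set (ℂ × ℂ) := {p | ‖p.2‖ < ρ ∧ -κ + ε < p.1.im} with hU
    have hUo : IsOpen U := IsOpen.inter (s := {p : ℂ × ℂ | ‖p.2‖ < ρ})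
      (t := {p : ℂ × ℂ | -κ + ε < p.1.im})
      (isOpen_lt continuous_snd.norm continuous_const)
      (isOpen_lt continuous_const (Complex.continuous_im.comp continuous_fst))
    have hp₀U : p₀ ∈ U := ⟨hp₀.1, by have := hp₀.2; simp only [hε]; linarith⟩
    refine DifferentiableOn.differentiableAt (s := U) ?_ (hUo.mem_nhds hp₀U)
    refine diffOn_tsum hUo (u := fun n : ℕ => |M| * Real.exp (-(2 * Real.pi * ε)) ^ n)
      (summable_geo hε0) ?_ ?_
    · intro n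
      refine DifferentiableOn.mul ?_ (Differentiable.differentiableOn (by fun_prop))
      exact (fc_diff hκ h2ρ hβ hG (n : ℤ)).comp (f := fun p : ℂ × ℂ => p.2)
        differentiableOn_snd (fun p hp => mem_ball_zero_iff.2 (lt_trans hp.1 (by linarith)))
    · intro n p hp
      have hp2 : ‖p.2‖ < 2 * ρ := lt_trans hp.1 (by linarith)
      obtain ⟨h1, h2, h3, h4⟩ := strip_of hκ h2ρ hβ hG hM hper hp2
      have h5 := term_pos (neg_lt_zero.2 hκ) h4 h1 h2 h3 n p.1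
      refine h5.trans ?_
      refine mul_le_mul (le_abs_self M) ?_ (pow_nonneg (Real.exp_pos _).le _) (abs_nonneg _)
      refine pow_le_pow_left₀ (Real.exp_pos _).le (Real.exp_le_exp.2 ?_) _
      have := Real.pi_pos
      have h6 : ε ≤ p.1.im - -κ := by have := hp.2; linarith
      nlinarith
  · intro p₀ hp₀
    apply DifferentiableAt.differentiableWithinAt
    set ε : ℝ := (β - p₀.1.im) / 2 with hε
    have hε0 : 0 < ε := by have := hp₀.2; simp only [hε]; linarith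
    set U : Set (ℂ × ℂ) := {p | ‖p.2‖ < ρ ∧ p.1.im < β - ε} with hU
    have hUo : IsOpen U := IsOpen.inter (s := {p : ℂ × ℂ | ‖p.2‖ < ρ})
      (t := {p : ℂ × ℂ | p.1.im < β - ε})
      (isOpen_lt continuous_snd.norm continuous_const)
      (isOpen_lt (Complex.continuous_im.comp continuous_fst) continuous_const)
    have hp₀U : p₀ ∈ U := ⟨hp₀.1, by have := hp₀.2; simp only [hε]; linarith⟩
    refine DifferentiableOn.differentiableAt (s := U) ?_ (hUo.mem_nhds hp₀U)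
    refine diffOn_tsum hUo (u := fun n : ℕ => C * Real.exp (-(2 * Real.pi * ε)) ^ (n + 1))
      ((summable_nat_add_iff 1).2 (summable_geo hε0)) ?_ ?_
    · intro n
      refine DifferentiableOn.mul ?_ (Differentiable.differentiableOn (by fun_prop))
      exact (q_diff hκ h2ρ hβ hG hvan n).neg.comp (f := fun p : ℂ × ℂ => p.2)
        differentiableOn_snd (fun p hp => mem_ball_zero_iff.2 (lt_trans hp.1 (by linarith)))
    · intro n p hp
      refine (hQb n p.1 p.2 (le_of_lt hp.1)).trans ?_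
      refine mul_le_mul_of_nonneg_left ?_ hC0
      refine pow_le_pow_left₀ (Real.exp_pos _).le (Real.exp_le_exp.2 ?_) _
      have := Real.pi_pos
      have h6 : ε ≤ β - p.1.im := by have := hp.2; linarith
      nlinarith
  · intro s w hw hs1 hs2
    have hw2 : ‖w‖ < 2 * ρ := by linarith
    obtain ⟨h1, h2, h3, h4⟩ := strip_of hκ h2ρ hβ hG hM hper hw2
    have hsS : s ∈ Str (-κ) (β - |w.im| / 2) := ⟨hs1, by linarith⟩
    have hF := fourier_strip (neg_lt_zero.2 hκ) h4 h1 h2 h3 hsS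
    have hsum : ∀ z : ℂ, z.im < β → Summable (fun n : ℕ => -(quo (An G n) (Bn n) w) *
        Complex.exp (-(2 * Real.pi * Complex.I * ((n + 1 : ℕ) : ℂ) * z))) := by
      intro z hz
      refine Summable.of_norm_bounded ((summable_nat_add_iff 1).2
        (summable_geo (M := C) (y := β - z.im) (by linarith))) fun n => hQb n z w hw.le
    have hw2im : (w / 2).im = w.im / 2 := by
      rw [show w / 2 = ((1 / 2 : ℝ) : ℂ) * w by push_cast; ring, Complex.im_ofReal_mul]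
      ring
    have hz1 : (s + w / 2).im < β := by
      rw [Complex.add_im, hw2im]
      have := le_abs_self w.im
      linarith
    have hz2 : (s - w / 2).im < β := by
      rw [Complex.sub_im, hw2im]
      have := neg_abs_le w.im
      linarith
    rw [hQ, hH]
    simp only
    rw [← (hsum _ hz1).tsum_sub (hsum _ hz2), hF]
    rw [add_sub_cancel_left, ← tsum_mul_left]
    refine tsum_congr fun n => ?_
    have hA : w * fc (fun t => G t w) (-((n + 1 : ℕ) : ℤ)) = An G n w := rfl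
    rw [← mul_assoc, hA, ← quo_mul (fun hB => An_zero hκ hvan n hw2 hB)]
    have e1 : Complex.exp (-(2 * Real.pi * Complex.I * ((n + 1 : ℕ) : ℂ) * (s + w / 2))) =
        Complex.exp (-(2 * Real.pi * Complex.I * ((n + 1 : ℕ) : ℂ) * s)) *
          Complex.exp (-(Real.pi * (((n + 1 : ℕ) : ℂ) * w)) * I) := by
      rw [← Complex.exp_add]; congr 1; ring
    have e2 : Complex.exp (-(2 * Real.pi * Complex.I * ((n + 1 : ℕ) : ℂ) * (s - w / 2))) =
        Complex.exp (-(2 * Real.pi * Complex.I * ((n + 1 : ℕ) : ℂ) * s)) *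
          Complex.exp ((Real.pi * (((n + 1 : ℕ) : ℂ) * w)) * I) := by
      rw [← Complex.exp_add]; congr 1; ring
    have e3 : Bn n w = Complex.exp ((Real.pi * (((n + 1 : ℕ) : ℂ) * w)) * I) -
        Complex.exp (-(Real.pi * (((n + 1 : ℕ) : ℂ) * w)) * I) := by
      unfold Bn
      rw [Complex.sin]
      ring_nf
      simp only [I_sq]
      ring
    rw [e1, e2, e3]
    ring

end

end Vale.Agent.P097.H490
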