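import Vale.Agent.P097.LR.Defs
import Vale.Agent.P097.H490.VCore

/-! # P097 / H490 : [VL] -/

namespace Vale.Agent.P097.H490

open Vale.Agent.P097

theorem vl : LR.VL := by
  intro κ β ρ G hκ hρ hβ hG hM hper hvan
  obtain ⟨M, hM⟩ := hM
  obtain ⟨H, Q, hH, hQ, he⟩ := vcore (κ := κ) (β := β) (ρ := ρ) (M := M) (G := G) hκ hρ hβ hG hM
    hper hvan
  exact ⟨H, Q, ⟨hH, hQ, he⟩⟩

end Vale.Agent.P097.H490
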