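import Mathlib

/-! # P097 / H490 : holomorphic dependence on parameters (integrals and series) -/

set_option linter.all false

open Complex Set Filter Topology MeasureTheory

namespace Vale.Agent.P097.H490

/-- Integral of a function holomorphic in the parameter. -/
theorem diffOn_integral {U : Set ℂ} (hU : IsOpen U) {a b : ℝ} (hab : a ≤ b) {Φ : ℂ → ℝ → ℂ}
    (hc : ContinuousOn (fun p : ℂ × ℝ => Φ p.1 p.2) (U ×ˢ Icc a b))
    (hd : ∀ θ ∈ Icc a b, DifferentiableOn ℂ (fun z => Φ z θ) U) :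
    DifferentiableOn ℂ (fun z => ∫ θ in a..b, Φ z θ) U := by
  intro z₀ hz₀
  obtain ⟨δ, hδ, hball⟩ : ∃ δ > 0, Metric.closedBall z₀ (2 * δ) ⊆ U := by
    obtain ⟨ε, hε, h⟩ := Metric.isOpen_iff.1 hU z₀ hz₀
    refine ⟨ε / 4, by positivity, fun z hz => h ?_⟩
    rw [Metric.mem_closedBall] at hz
    rw [Metric.mem_ball]
    linarith
  have hK : IsCompact (Metric.closedBall z₀ (2 * δ) ×ˢ Icc a b) :=
    (isCompact_closedBall _ _).prod isCompact_Icc
  obtain ⟨M, hM⟩ := hK.exists_bound_of_continuousOn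
    (hc.mono (Set.prod_mono hball Subset.rfl))
  have hcθ : ∀ z ∈ U, ContinuousOn (fun θ => Φ z θ) (Icc a b) := by
    intro z hz
    exact hc.comp (f := fun θ : ℝ => ((z, θ) : ℂ × ℝ)) (Continuous.continuousOn (by fun_prop))
      (fun θ hθ => ⟨hz, hθ⟩)
  have hsub : Metric.closedBall z₀ δ ⊆ Metric.closedBall z₀ (2 * δ) :=
    Metric.closedBall_subset_closedBall (by linarith)
  have hIoc : uIoc a b ⊆ Icc a b := by
    rw [uIoc_of_le hab]; exact Ioc_subset_Icc_self
  have hb : ∀ θ ∈ Icc a b, ∀ z ∈ Metric.ball z₀ δ, ‖deriv (fun z => Φ z θ) z‖ ≤ M / δ := by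
    intro θ hθ z hz
    have hsubz : Metric.closedBall z δ ⊆ Metric.closedBall z₀ (2 * δ) := by
      intro y hy
      rw [Metric.mem_closedBall] at *
      rw [Metric.mem_ball] at hz
      calc dist y z₀ ≤ dist y z + dist z z₀ := dist_triangle _ _ _
        _ ≤ 2 * δ := by linarith
    refine Complex.norm_deriv_le_of_forall_mem_sphere_norm_le hδ ?_ ?_
    · refine DifferentiableOn.diffContOnCl_ball (U := U) (hd θ hθ) ?_
      exact hsubz.trans hball
    · intro y hy
      exact hM (y, θ) ⟨hsubz (Metric.sphere_subset_closedBall hy), hθ⟩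
  have key := intervalIntegral.hasDerivAt_integral_of_dominated_loc_of_deriv_le
    (μ := volume) (a := a) (b := b) (F := Φ) (F' := fun z θ => deriv (fun z => Φ z θ) z)
    (x₀ := z₀) (s := Metric.ball z₀ δ) (bound := fun _ => M / δ)
    (Metric.ball_mem_nhds _ hδ) ?_ ?_ ?_ ?_ ?_ ?_
  · exact key.2.differentiableAt.differentiableWithinAt
  · filter_upwards [Metric.ball_mem_nhds z₀ hδ] with z hz
    have hzU : z ∈ U := hball (hsub (Metric.ball_subset_closedBall hz))
    exact ((hcθ z hzU).mono hIoc).aestronglyMeasurable measurableSet_uIoc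
  · have := (hcθ z₀ hz₀)
    rw [← uIcc_of_le hab] at this
    exact this.intervalIntegrable
  · -- measurability of the derivative
    have hlim : ∀ θ ∈ uIoc a b, Tendsto (fun n : ℕ =>
        ((1 / ((n : ℂ) + 1))⁻¹) • (Φ (z₀ + 1 / ((n : ℂ) + 1)) θ - Φ z₀ θ)) atTop
        (𝓝 (deriv (fun z => Φ z θ) z₀)) := by
      intro θ hθ
      have h1 : HasDerivAt (fun z => Φ z θ) (deriv (fun z => Φ z θ) z₀) z₀ :=
        ((hd θ (hIoc hθ)).differentiableAt (hU.mem_nhds hz₀)).hasDerivAt
      rw [hasDerivAt_iff_tendsto_slope_zero] at h1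
      refine h1.comp ?_
      rw [tendsto_nhdsWithin_iff]
      refine ⟨tendsto_one_div_add_atTop_nhds_zero_nat (𝕜 := ℂ), Eventually.of_forall ?_⟩
      intro n
      simp only [mem_compl_iff, mem_singleton_iff, one_div, inv_eq_zero]
      exact_mod_cast Nat.succ_ne_zero n
    have hev : ∃ n₀ : ℕ, ∀ n ≥ n₀, z₀ + 1 / ((n : ℂ) + 1) ∈ U := by
      have h2 : Tendsto (fun n : ℕ => z₀ + 1 / ((n : ℂ) + 1)) atTop (𝓝 (z₀ + 0)) :=
        tendsto_const_nhds.add (tendsto_one_div_add_atTop_nhds_zero_nat (𝕜 := ℂ))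
      rw [add_zero] at h2
      exact eventually_atTop.1 (h2 (hU.mem_nhds hz₀))
    obtain ⟨n₀, hn₀⟩ := hev
    refine aestronglyMeasurable_of_tendsto_ae (u := atTop)
      (f := fun n : ℕ => fun θ => ((1 / (((n + n₀ : ℕ) : ℂ) + 1))⁻¹) •
        (Φ (z₀ + 1 / (((n + n₀ : ℕ) : ℂ) + 1)) θ - Φ z₀ θ)) ?_ ?_
    · intro n
      refine ContinuousOn.aestronglyMeasurable ?_ measurableSet_uIoc
      have h3 : ContinuousOn (fun θ => Φ (z₀ + 1 / (((n + n₀ : ℕ) : ℂ) + 1)) θ - Φ z₀ θ)
          (uIoc a b) := ((hcθ _ (hn₀ _ (by omega))).sub (hcθ _ hz₀)).mono hIoc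
      have h4 : ContinuousOn (fun θ => (1 / (((n + n₀ : ℕ) : ℂ) + 1))⁻¹ *
          (Φ (z₀ + 1 / (((n + n₀ : ℕ) : ℂ) + 1)) θ - Φ z₀ θ)) (uIoc a b) :=
        continuousOn_const.mul h3
      simpa only [smul_eq_mul] using h4
    · refine (ae_restrict_iff' measurableSet_uIoc).2 (Eventually.of_forall fun θ hθ => ?_)
      exact (hlim θ hθ).comp (tendsto_add_atTop_nat n₀)
  · refine Eventually.of_forall fun θ hθ z hz => hb θ (hIoc hθ) z hz
  · exact intervalIntegrable_const
  · refine Eventually.of_forall fun θ hθ z hz => ?_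
    have hzU : z ∈ U := hball (hsub (Metric.ball_subset_closedBall hz))
    exact ((hd θ (hIoc hθ)).differentiableAt (hU.mem_nhds hzU)).hasDerivAt

/-- Cauchy estimate for the Fréchet derivative. -/
theorem norm_fderiv_le {E : Type*} [NormedAddCommGroup E] [NormedSpace ℂ E] {f : E → ℂ} {p : E}
    {δ M : ℝ} (hδ : 0 < δ) (hd : DifferentiableOn ℂ f (Metric.ball p (2 * δ)))
    (hM : ∀ q ∈ Metric.ball p (2 * δ), ‖f q‖ ≤ M) : ‖fderiv ℂ f p‖ ≤ M / δ := by
  have hM0 : 0 ≤ M := (norm_nonneg _).trans (hM p (Metric.mem_ball_self (by linarith)))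
  refine ContinuousLinearMap.opNorm_le_bound _ (by positivity) fun v => ?_
  rcases eq_or_ne v 0 with rfl | hv
  · simp
  have hv' : 0 < ‖v‖ := norm_pos_iff.2 hv
  -- one variable function
  set g : ℂ → ℂ := fun t => f (p + t • v) with hg
  have hline : ∀ t : ℂ, ‖t‖ < 2 * δ / ‖v‖ → p + t • v ∈ Metric.ball p (2 * δ) := by
    intro t ht
    rw [Metric.mem_ball, dist_eq_norm, add_sub_cancel_left, norm_smul]
    rwa [lt_div_iff₀ hv'] at ht
  have hgd : DifferentiableOn ℂ g (Metric.ball 0 (2 * δ / ‖v‖)) := by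
    refine hd.comp (by fun_prop) ?_
    intro t ht
    rw [mem_ball_zero_iff] at ht
    exact hline t ht
  have h1 : ‖deriv g 0‖ ≤ M / (δ / ‖v‖) := by
    refine Complex.norm_deriv_le_of_forall_mem_sphere_norm_le (by positivity) ?_ ?_
    · refine DifferentiableOn.diffContOnCl_ball hgd ?_
      refine Metric.closedBall_subset_ball ?_
      rw [div_lt_div_iff_of_pos_right hv']
      linarith
    · intro t ht
      rw [mem_sphere_zero_iff_norm] at ht
      refine hM _ (hline t ?_)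
      rw [ht, div_lt_div_iff_of_pos_right hv']
      linarith
  have h2 : deriv g 0 = fderiv ℂ f p v := by
    have h3 : HasFDerivAt f (fderiv ℂ f p) (p + (0 : ℂ) • v) := by
      rw [zero_smul, add_zero]
      exact (hd.differentiableAt (Metric.ball_mem_nhds _ (by linarith))).hasFDerivAt
    have h4 : HasDerivAt (fun t : ℂ => p + t • v) v 0 := by
      have := ((hasDerivAt_id (0 : ℂ)).smul_const v).const_add p
      simpa using this
    have h5 := h3.comp_hasDerivAt (0 : ℂ) h4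
    exact h5.deriv
  rw [← h2]
  calc ‖deriv g 0‖ ≤ M / (δ / ‖v‖) := h1
    _ = M / δ * ‖v‖ := by field_simp

/-- Sum of a normally convergent series of holomorphic functions of several variables. -/
theorem diffOn_tsum {ι E : Type*} [NormedAddCommGroup E] [NormedSpace ℂ E] {U : Set E}
    (hU : IsOpen U) {F : ι → E → ℂ} {u : ι → ℝ} (hu : Summable u)
    (hF : ∀ n, DifferentiableOn ℂ (F n) U) (hb : ∀ n, ∀ p ∈ U, ‖F n p‖ ≤ u n) :
    DifferentiableOn ℂ (fun p => ∑' n, F n p) U := by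
  intro p₀ hp₀
  obtain ⟨δ, hδ, hball⟩ : ∃ δ > 0, Metric.ball p₀ (3 * δ) ⊆ U := by
    obtain ⟨ε, hε, h⟩ := Metric.isOpen_iff.1 hU p₀ hp₀
    refine ⟨ε / 3, by positivity, fun z hz => h ?_⟩
    rw [Metric.mem_ball] at *
    linarith
  have hsub : ∀ p ∈ Metric.ball p₀ δ, Metric.ball p (2 * δ) ⊆ U := by
    intro p hp q hq
    refine hball ?_
    rw [Metric.mem_ball] at *
    calc dist q p₀ ≤ dist q p + dist p p₀ := dist_triangle _ _ _
      _ < 3 * δ := by linarith
  letI : NormedSpace ℝ E := NormedSpace.restrictScalars ℝ ℂ E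
  have hconv : IsPreconnected (Metric.ball p₀ δ) := (convex_ball p₀ δ).isPreconnected
  have := hasFDerivAt_tsum_of_isPreconnected (𝕜 := ℂ) (u := fun n => u n / δ) (f := F)
    (f' := fun n p => fderiv ℂ (F n) p) (s := Metric.ball p₀ δ) (x₀ := p₀) (x := p₀)
    (hu.div_const δ) Metric.isOpen_ball hconv ?_ ?_ (Metric.mem_ball_self hδ) ?_
    (Metric.mem_ball_self hδ)
  · exact this.differentiableAt.differentiableWithinAt
  · intro n p hp
    exact ((hF n).differentiableAt (hU.mem_nhds (hsub p hp (Metric.mem_ball_self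
      (by linarith))))).hasFDerivAt
  · intro n p hp
    exact norm_fderiv_le hδ ((hF n).mono (hsub p hp)) (fun q hq => hb n q (hsub p hp hq))
  · exact Summable.of_norm_bounded hu (fun n => hb n p₀ hp₀)

end Vale.Agent.P097.H490
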