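import Vale.Agent.P097.H490.Strip

/-! # P097 / H490 : removable quotients, lower bound of the sine on the circles `|ζ| = m + 1/2` -/

set_option linter.all false

open Complex Set Filter Topology MeasureTheory

namespace Vale.Agent.P097.H490

open Classical in
/-- quotient with simple zeros of the denominator filled in -/
noncomputable def quo (A B : ℂ → ℂ) (w : ℂ) : ℂ :=
  if B w = 0 then deriv A w / deriv B w else A w / B w

theorem quo_diff {A B : ℂ → ℂ} {U : Set ℂ} (hU : IsOpen U) (hA : DifferentiableOn ℂ A U)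
    (hB : DifferentiableOn ℂ B U) (hz : ∀ w ∈ U, B w = 0 → A w = 0)
    (hs : ∀ w ∈ U, B w = 0 → deriv B w ≠ 0) : DifferentiableOn ℂ (quo A B) U := by
  intro w₀ hw₀
  apply DifferentiableAt.differentiableWithinAt
  have dA : DifferentiableAt ℂ A w₀ := hA.differentiableAt (hU.mem_nhds hw₀)
  have dB : DifferentiableAt ℂ B w₀ := hB.differentiableAt (hU.mem_nhds hw₀)
  by_cases h0 : B w₀ = 0
  · have hA0 := hz w₀ hw₀ h0
    have hB' := hs w₀ hw₀ h0
    have dsA : DifferentiableAt ℂ (dslope A w₀) w₀ :=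
      ((Complex.differentiableOn_dslope (hU.mem_nhds hw₀)).2 hA).differentiableAt (hU.mem_nhds hw₀)
    have dsB : DifferentiableAt ℂ (dslope B w₀) w₀ :=
      ((Complex.differentiableOn_dslope (hU.mem_nhds hw₀)).2 hB).differentiableAt (hU.mem_nhds hw₀)
    have hne : dslope B w₀ w₀ ≠ 0 := by rwa [dslope_same]
    have hev : quo A B =ᶠ[𝓝 w₀] fun w => dslope A w₀ w / dslope B w₀ w := by
      filter_upwards [dsB.continuousAt.eventually_ne hne] with w hw
      rcases eq_or_ne w w₀ with rfl | hww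
      · simp [quo, h0, dslope_same]
      · have e1 : A w = (w - w₀) * dslope A w₀ w := by
          have := sub_smul_dslope A w₀ w
          rw [smul_eq_mul, hA0, sub_zero] at this
          exact this.symm
        have e2 : B w = (w - w₀) * dslope B w₀ w := by
          have := sub_smul_dslope B w₀ w
          rw [smul_eq_mul, h0, sub_zero] at this
          exact this.symm
        have h3 : w - w₀ ≠ 0 := sub_ne_zero.2 hww
        have h4 : B w ≠ 0 := by rw [e2]; exact mul_ne_zero h3 hw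
        simp only [quo, if_neg h4]
        rw [e1, e2, mul_div_mul_left _ _ h3]
    exact (dsA.div dsB hne).congr_of_eventuallyEq hev
  · have hev : quo A B =ᶠ[𝓝 w₀] fun w => A w / B w := by
      filter_upwards [dB.continuousAt.eventually_ne h0] with w hw
      simp [quo, hw]
    exact (dA.div dB h0).congr_of_eventuallyEq hev

theorem quo_mul {A B : ℂ → ℂ} {w : ℂ} (hz : B w = 0 → A w = 0) : quo A B w * B w = A w := by
  by_cases h : B w = 0
  · rw [h, hz h, mul_zero]
  · simp only [quo, if_neg h]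
    field_simp

theorem normSq_sin' (z : ℂ) : Complex.normSq (Complex.sin z) =
    Real.sin z.re ^ 2 + Real.sinh z.im ^ 2 := by
  rw [Complex.sin_eq z]
  have h1 : (Complex.sin (z.re : ℂ) * Complex.cosh (z.im : ℂ) +
      Complex.cos (z.re : ℂ) * Complex.sinh (z.im : ℂ) * I) =
      ((Real.sin z.re * Real.cosh z.im : ℝ) : ℂ) +
        ((Real.cos z.re * Real.sinh z.im : ℝ) : ℂ) * I := by push_cast; ring
  rw [h1, Complex.normSq_add_mul_I]
  have h2 := Real.cosh_sq z.im
  have h3 := Real.sin_sq_add_cos_sq z.re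
  have h4 : Real.cos z.re ^ 2 = 1 - Real.sin z.re ^ 2 := by linarith
  rw [mul_pow, mul_pow, h2, h4]
  ring

theorem sin_ge_sinh (z : ℂ) : |Real.sinh z.im| ≤ ‖Complex.sin z‖ := by
  have h := normSq_sin' z
  rw [Complex.normSq_eq_norm_sq] at h
  refine abs_le_of_sq_le_sq' ?_ (norm_nonneg _) |> fun h => abs_le.2 h
  nlinarith [sq_nonneg (Real.sin z.re)]

theorem sin_ge_sin (z : ℂ) : |Real.sin z.re| ≤ ‖Complex.sin z‖ := by
  have h := normSq_sin' z
  rw [Complex.normSq_eq_norm_sq] at h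
  refine abs_le_of_sq_le_sq' ?_ (norm_nonneg _) |> fun h => abs_le.2 h
  nlinarith [sq_nonneg (Real.sinh z.im)]

theorem sin_lower {ζ : ℂ} {m : ℕ} (h : ‖ζ‖ = m + 1 / 2) :
    1 / 4 * Real.exp (Real.pi * |ζ.im|) ≤ ‖Complex.sin (Real.pi * ζ)‖ := by
  have hpi := Real.pi_pos
  have hpi3 := Real.pi_gt_three
  have hpi4 := Real.pi_lt_d2
  have him : (Real.pi * ζ : ℂ).im = Real.pi * ζ.im := Complex.im_ofReal_mul _ _
  have hre : (Real.pi * ζ : ℂ).re = Real.pi * ζ.re := Complex.re_ofReal_mul _ _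
  rcases le_or_gt (1 / 4) |ζ.im| with h1 | h1
  · refine le_trans ?_ (sin_ge_sinh _)
    rw [him]
    set u : ℝ := Real.pi * |ζ.im| with hu
    have hu0 : 3 / 4 ≤ u := by nlinarith
    have h2 : |Real.sinh (Real.pi * ζ.im)| = Real.sinh u := by
      rw [Real.abs_sinh, abs_mul, abs_of_pos hpi]
    rw [h2, Real.sinh_eq]
    have h3 : Real.exp (-u) = (Real.exp u)⁻¹ := Real.exp_neg u
    have h4 : 2 ≤ Real.exp u * Real.exp u := by
      rw [← Real.exp_add]
      have := Real.add_one_le_exp (u + u)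
      linarith
    have h5 : Real.exp (-u) ≤ Real.exp u / 2 := by
      rw [h3, inv_le_comm₀ (Real.exp_pos _) (by positivity)]
      rw [inv_div, div_le_iff₀ (Real.exp_pos _)]
      exact h4
    linarith
  · refine le_trans ?_ (sin_ge_sin _)
    rw [hre]
    have h2 : Real.exp (Real.pi * |ζ.im|) ≤ 2.7182818286 := by
      refine le_trans (Real.exp_le_exp.2 ?_) Real.exp_one_lt_d9.le
      nlinarith
    have h3 : 0.7 ≤ |Real.sin (Real.pi * ζ.re)| := by
      have hsq : ζ.re ^ 2 + ζ.im ^ 2 = (m + 1 / 2) ^ 2 := by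
        rw [← h, Complex.sq_norm, Complex.normSq_apply]; ring
      have hm0 : (0:ℝ) ≤ m := Nat.cast_nonneg m
      have him2 : ζ.im ^ 2 < 1 / 16 := by
        rw [← sq_abs]; nlinarith [abs_nonneg ζ.im]
      have hre1 : (m : ℝ) + 1 / 4 ≤ |ζ.re| := by
        have : ((m : ℝ) + 1 / 4) ^ 2 ≤ |ζ.re| ^ 2 := by rw [sq_abs]; nlinarith
        exact le_of_sq_le_sq this (abs_nonneg _)
      have hre2 : |ζ.re| ≤ (m : ℝ) + 1 / 2 := by
        have : |ζ.re| ^ 2 ≤ ((m : ℝ) + 1 / 2) ^ 2 := by rw [sq_abs]; nlinarith [sq_nonneg ζ.im]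
        exact le_of_sq_le_sq this (by positivity)
      have e1 : |Real.sin (Real.pi * ζ.re)| = |Real.sin (Real.pi * |ζ.re|)| := by
        rcases abs_choice ζ.re with h | h
        · rw [h]
        · rw [h, mul_neg, Real.sin_neg, abs_neg]
      have e2 : Real.sin (Real.pi * |ζ.re|) =
          (-1) ^ m * Real.sin (Real.pi * (|ζ.re| - m)) := by
        rw [← Real.sin_add_nat_mul_pi]
        congr 1
        ring
      have e3 : Real.sin (Real.pi / 4) ≤ Real.sin (Real.pi * (|ζ.re| - m)) := by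
        refine Real.sin_le_sin_of_le_of_le_pi_div_two (by linarith) ?_ ?_
        · nlinarith
        · nlinarith
      rw [e1, e2, abs_mul, abs_pow, abs_neg, abs_one, one_pow, one_mul]
      refine le_trans ?_ (le_abs_self _)
      refine le_trans ?_ e3
      rw [Real.sin_pi_div_four]
      have : (1.4 : ℝ) ≤ √2 := Real.le_sqrt_of_sq_le (by norm_num)
      linarith
    linarith

theorem exists_half {ρ : ℝ} (hρ : 0 < ρ) {N : ℕ} (hN : 1 ≤ N * ρ) :
    ∃ m : ℕ, ρ ≤ ((m : ℝ) + 1 / 2) / N ∧ ((m : ℝ) + 1 / 2) / N < 2 * ρ := by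
  have hN0 : (0:ℝ) < N := by
    rcases Nat.eq_zero_or_pos N with h | h
    · rw [h] at hN; norm_num at hN
    · exact_mod_cast h
  refine ⟨⌈(N : ℝ) * ρ - 1 / 2⌉₊, ?_, ?_⟩
  · rw [le_div_iff₀ hN0]
    have := Nat.le_ceil ((N : ℝ) * ρ - 1 / 2)
    linarith
  · rw [div_lt_iff₀ hN0]
    have := Nat.ceil_lt_add_one (a := (N : ℝ) * ρ - 1 / 2) (by linarith)
    nlinarith

end Vale.Agent.P097.H490
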