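import Vale.Agent.P097.H490.Par

/-! # P097 / H490 : Fourier series of a periodic function holomorphic on a strip -/

set_option linter.all false

open Complex Set Filter Topology MeasureTheory

namespace Vale.Agent.P097.H490

/-- Fourier coefficient on the real line. -/
noncomputable def fc (f : ℂ → ℂ) (N : ℤ) : ℂ :=
  ∫ x in (0:ℝ)..1, f x * Complex.exp (-(2 * Real.pi * Complex.I * N * x))

/-- a strip -/
def Str (a b : ℝ) : Set ℂ := {t | a < t.im ∧ t.im < b}

theorem isOpen_str (a b : ℝ) : IsOpen (Str a b) :=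
  IsOpen.inter (s := {z : ℂ | a < z.im}) (t := {z : ℂ | z.im < b})
    (isOpen_lt continuous_const Complex.continuous_im)
    (isOpen_lt Complex.continuous_im continuous_const)

theorem exp_per (N : ℤ) (t : ℂ) :
    Complex.exp (-(2 * Real.pi * Complex.I * N * (t + 1))) =
      Complex.exp (-(2 * Real.pi * Complex.I * N * t)) := by
  rw [Complex.exp_eq_exp_iff_exists_int]
  refine ⟨-N, ?_⟩
  push_cast
  ring

theorem fc_shift {f : ℂ → ℂ} {a b : ℝ} (ha : a < 0) (hb : 0 < b)
    (hf : DifferentiableOn ℂ f (Str a b)) (hper : ∀ t ∈ Str a b, f (t + 1) = f t) (N : ℤ)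
    {y : ℝ} (hya : a < y) (hyb : y < b) :
    ∫ x in (0:ℝ)..1, f (x + y * I) * Complex.exp (-(2 * Real.pi * Complex.I * N * (x + y * I))) =
      fc f N := by
  set φ : ℂ → ℂ := fun t => f t * Complex.exp (-(2 * Real.pi * Complex.I * N * t)) with hφ
  have hd : DifferentiableOn ℂ φ (Str a b) := hf.mul (by fun_prop)
  have hφper : ∀ t ∈ Str a b, φ (t + 1) = φ t := by
    intro t ht
    simp only [hφ]
    rw [hper t ht, exp_per]
  have hsub : (uIcc (0:ℂ).re (1 + y * I : ℂ).re ×ℂ uIcc (0:ℂ).im (1 + y * I : ℂ).im) ⊆ Str a b := by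
    intro t ht
    rw [Complex.mem_reProdIm] at ht
    have h2 : t.im ∈ uIcc 0 y := by simpa using ht.2
    rw [mem_uIcc] at h2
    rcases h2 with h | h
    · exact ⟨by linarith [h.1], by linarith [h.2]⟩
    · exact ⟨by linarith [h.1], by linarith [h.2]⟩
  have h1 := Complex.integral_boundary_rect_eq_zero_of_differentiableOn φ 0 (1 + y * I)
    (hd.mono hsub)
  simp only [Complex.zero_re, Complex.zero_im, Complex.add_re, Complex.one_re, Complex.mul_re,
    Complex.ofReal_re, Complex.I_re, mul_zero, Complex.ofReal_im, Complex.I_im, mul_one, sub_self,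
    add_zero, Complex.add_im, Complex.one_im, Complex.mul_im, zero_add, Complex.ofReal_zero,
    zero_mul, Complex.ofReal_one] at h1
  have h2 : ∫ y' in (0:ℝ)..y, φ (1 + y' * I) = ∫ y' in (0:ℝ)..y, φ (y' * I) := by
    refine intervalIntegral.integral_congr fun y' hy' => ?_
    have h3 : (y' * I : ℂ) ∈ Str a b := by
      rw [mem_uIcc] at hy'
      simp only [Str, mem_setOf_eq, Complex.mul_im, Complex.ofReal_re, Complex.I_im, mul_one,
        Complex.ofReal_im, Complex.I_re, mul_zero, add_zero]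
      rcases hy' with h | h
      · exact ⟨by linarith [h.1], by linarith [h.2]⟩
      · exact ⟨by linarith [h.1], by linarith [h.2]⟩
    rw [add_comm, hφper _ h3]
  rw [h2] at h1
  have h4 : (∫ x in (0:ℝ)..1, φ x) = ∫ x in (0:ℝ)..1, φ (x + y * I) := by
    linear_combination h1
  exact h4.symm

theorem norm_exp_str (N : ℤ) (t : ℂ) :
    ‖Complex.exp (-(2 * Real.pi * Complex.I * N * t))‖ = Real.exp (2 * Real.pi * N * t.im) := by
  rw [Complex.norm_exp]
  congr 1
  have : (2 * Real.pi * Complex.I * N * t : ℂ) = ((2 * Real.pi * N : ℝ) : ℂ) * (Complex.I * t) := by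
    push_cast; ring
  rw [Complex.neg_re, this, Complex.re_ofReal_mul, Complex.I_mul_re]
  ring

theorem fc_bound {f : ℂ → ℂ} {a b M : ℝ} (ha : a < 0) (hb : 0 < b)
    (hf : DifferentiableOn ℂ f (Str a b)) (hper : ∀ t ∈ Str a b, f (t + 1) = f t)
    (hM : ∀ t ∈ Str a b, ‖f t‖ ≤ M) (N : ℤ) {y : ℝ} (hya : a < y) (hyb : y < b) :
    ‖fc f N‖ ≤ M * Real.exp (2 * Real.pi * N * y) := by
  rw [← fc_shift ha hb hf hper N hya hyb]
  refine (intervalIntegral.norm_integral_le_of_norm_le_const (C := M * Real.exp (2 * Real.pi * N * y))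
    (fun x _ => ?_)).trans ?_
  · rw [norm_mul, norm_exp_str]
    have h1 : (x + y * I : ℂ).im = y := by simp
    rw [h1]
    refine mul_le_mul_of_nonneg_right (hM _ ?_) (Real.exp_pos _).le
    exact ⟨by rw [h1]; exact hya, by rw [h1]; exact hyb⟩
  · simp

theorem fc_bound_a {f : ℂ → ℂ} {a b M : ℝ} (ha : a < 0) (hb : 0 < b)
    (hf : DifferentiableOn ℂ f (Str a b)) (hper : ∀ t ∈ Str a b, f (t + 1) = f t)
    (hM : ∀ t ∈ Str a b, ‖f t‖ ≤ M) (N : ℤ) :
    ‖fc f N‖ ≤ M * Real.exp (2 * Real.pi * N * a) := by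
  have hc : ContinuousWithinAt (fun y : ℝ => M * Real.exp (2 * Real.pi * N * y)) (Ioi a) a :=
    Continuous.continuousWithinAt (by fun_prop)
  refine ge_of_tendsto hc ?_
  have : ∀ᶠ y in 𝓝[>] a, y < b :=
    mem_nhdsWithin_of_mem_nhds (Iio_mem_nhds (by linarith))
  filter_upwards [this, self_mem_nhdsWithin] with y hy1 hy2
  exact fc_bound ha hb hf hper hM N hy2 hy1

theorem fc_bound_b {f : ℂ → ℂ} {a b M : ℝ} (ha : a < 0) (hb : 0 < b)
    (hf : DifferentiableOn ℂ f (Str a b)) (hper : ∀ t ∈ Str a b, f (t + 1) = f t)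
    (hM : ∀ t ∈ Str a b, ‖f t‖ ≤ M) (N : ℤ) :
    ‖fc f N‖ ≤ M * Real.exp (2 * Real.pi * N * b) := by
  have hc : ContinuousWithinAt (fun y : ℝ => M * Real.exp (2 * Real.pi * N * y)) (Iio b) b :=
    Continuous.continuousWithinAt (by fun_prop)
  refine ge_of_tendsto hc ?_
  have : ∀ᶠ y in 𝓝[<] b, a < y :=
    mem_nhdsWithin_of_mem_nhds (Ioi_mem_nhds (by linarith))
  filter_upwards [this, self_mem_nhdsWithin] with y hy1 hy2
  exact fc_bound ha hb hf hper hM N hy1 hy2

/-- geometric bound of the terms, positive side -/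
theorem term_pos {f : ℂ → ℂ} {a b M : ℝ} (ha : a < 0) (hb : 0 < b)
    (hf : DifferentiableOn ℂ f (Str a b)) (hper : ∀ t ∈ Str a b, f (t + 1) = f t)
    (hM : ∀ t ∈ Str a b, ‖f t‖ ≤ M) (n : ℕ) (t : ℂ) :
    ‖fc f (n : ℤ) * Complex.exp (2 * Real.pi * Complex.I * n * t)‖ ≤
      M * Real.exp (-(2 * Real.pi * (t.im - a))) ^ n := by
  have h1 := norm_exp_str (-(n : ℤ)) t
  have h2 : (-(2 * Real.pi * Complex.I * ((-(n : ℤ) : ℤ) : ℂ) * t)) =
      2 * Real.pi * Complex.I * n * t := by push_cast; ring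
  rw [h2] at h1
  rw [norm_mul, h1]
  have hb := fc_bound_a ha hb hf hper hM (n : ℤ)
  calc ‖fc f (n : ℤ)‖ * Real.exp (2 * Real.pi * ((-(n : ℤ) : ℤ) : ℝ) * t.im)
      ≤ (M * Real.exp (2 * Real.pi * ((n : ℤ) : ℝ) * a)) *
        Real.exp (2 * Real.pi * ((-(n : ℤ) : ℤ) : ℝ) * t.im) :=
        mul_le_mul_of_nonneg_right hb (Real.exp_pos _).le
    _ = M * Real.exp (-(2 * Real.pi * (t.im - a))) ^ n := by
        rw [mul_assoc, ← Real.exp_add, ← Real.exp_nat_mul]
        congr 2
        push_cast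
        ring

/-- geometric bound of the terms, negative side -/
theorem term_neg {f : ℂ → ℂ} {a b M : ℝ} (ha : a < 0) (hb : 0 < b)
    (hf : DifferentiableOn ℂ f (Str a b)) (hper : ∀ t ∈ Str a b, f (t + 1) = f t)
    (hM : ∀ t ∈ Str a b, ‖f t‖ ≤ M) (n : ℕ) (t : ℂ) :
    ‖fc f (-(n : ℤ)) * Complex.exp (-(2 * Real.pi * Complex.I * n * t))‖ ≤
      M * Real.exp (-(2 * Real.pi * (b - t.im))) ^ n := by
  have h1 := norm_exp_str (n : ℤ) t
  have h2 : (-(2 * Real.pi * Complex.I * (((n : ℤ) : ℤ) : ℂ) * t)) =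
      -(2 * Real.pi * Complex.I * n * t) := by push_cast; ring
  rw [h2] at h1
  rw [norm_mul, h1]
  have hb := fc_bound_b ha hb hf hper hM (-(n : ℤ))
  calc ‖fc f (-(n : ℤ))‖ * Real.exp (2 * Real.pi * ((n : ℤ) : ℝ) * t.im)
      ≤ (M * Real.exp (2 * Real.pi * ((-(n : ℤ) : ℤ) : ℝ) * b)) *
        Real.exp (2 * Real.pi * ((n : ℤ) : ℝ) * t.im) :=
        mul_le_mul_of_nonneg_right hb (Real.exp_pos _).le
    _ = M * Real.exp (-(2 * Real.pi * (b - t.im))) ^ n := by
        rw [mul_assoc, ← Real.exp_add, ← Real.exp_nat_mul]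
        congr 2
        push_cast
        ring

theorem exp_lt_one' {y : ℝ} (hy : 0 < y) : Real.exp (-(2 * Real.pi * y)) < 1 := by
  rw [Real.exp_lt_one_iff]
  have := Real.pi_pos
  nlinarith [mul_pos this hy]

theorem summable_geo {M y : ℝ} (hy : 0 < y) :
    Summable (fun n : ℕ => M * Real.exp (-(2 * Real.pi * y)) ^ n) :=
  (summable_geometric_of_lt_one (Real.exp_pos _).le (exp_lt_one' hy)).mul_left M

/-- the Fourier expansion on the strip -/
theorem fourier_strip {f : ℂ → ℂ} {a b M : ℝ} (ha : a < 0) (hb : 0 < b)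
    (hf : DifferentiableOn ℂ f (Str a b)) (hper : ∀ t ∈ Str a b, f (t + 1) = f t)
    (hM : ∀ t ∈ Str a b, ‖f t‖ ≤ M) {t : ℂ} (ht : t ∈ Str a b) :
    f t = (∑' n : ℕ, fc f (n : ℤ) * Complex.exp (2 * Real.pi * Complex.I * n * t)) +
      ∑' n : ℕ, fc f (-((n + 1 : ℕ) : ℤ)) *
        Complex.exp (-(2 * Real.pi * Complex.I * ((n + 1 : ℕ) : ℂ) * t)) := by
  haveI : Fact (0 < (1:ℝ)) := ⟨one_pos⟩
  set y : ℝ := t.im with hy
  have hline : ∀ x : ℝ, (x + y * I : ℂ) ∈ Str a b := by
    intro x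
    have h1 : (x + y * I : ℂ).im = y := by simp
    exact ⟨by rw [h1]; exact ht.1, by rw [h1]; exact ht.2⟩
  have hcont : Continuous (fun x : ℝ => f (x + y * I)) :=
    hf.continuousOn.comp_continuous (by fun_prop) hline
  have hperR : Function.Periodic (fun x : ℝ => f (x + y * I)) 1 := by
    intro x
    simp only
    rw [← hper _ (hline x)]
    congr 1
    push_cast
    ring
  set F : C(AddCircle (1:ℝ), ℂ) := ⟨hperR.lift, continuous_coinduced_dom.mpr hcont⟩ with hF
  have hFx : ∀ x : ℝ, F (x : AddCircle (1:ℝ)) = f (x + y * I) := fun x => rfl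
  have hcoef : ∀ N : ℤ, fourierCoeff F N =
      fc f N * Complex.exp (2 * Real.pi * Complex.I * N * (y * I)) := by
    intro N
    rw [fourierCoeff_eq_intervalIntegral _ N 0, ← fc_shift ha hb hf hper N ht.1 ht.2,
      ← intervalIntegral.integral_mul_const]
    simp only [zero_add, ne_eq, one_ne_zero, not_false_eq_true, div_self, one_smul]
    refine intervalIntegral.integral_congr fun x _ => ?_
    show _ = _
    rw [hFx, fourier_coe_apply, smul_eq_mul, mul_comm]
    rw [mul_assoc (f _), ← Complex.exp_add]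
    congr 2
    push_cast
    ring
  set T : ℤ → ℂ := fun N => fc f N * Complex.exp (2 * Real.pi * Complex.I * N * t) with hT
  have hTterm : ∀ N : ℤ, fourierCoeff F N • fourier N ((t.re : ℝ) : AddCircle (1:ℝ)) = T N := by
    intro N
    rw [hcoef, fourier_coe_apply, smul_eq_mul, mul_assoc, ← Complex.exp_add]
    simp only [hT]
    congr 2
    conv_rhs => rw [← Complex.re_add_im t]
    push_cast
    ring
  have hpos : Summable (fun n : ℕ => T (n : ℤ)) := by
    refine Summable.of_norm_bounded (summable_geo (M := M) (y := t.im - a) (by linarith [ht.1]))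
      fun n => ?_
    have := term_pos ha hb hf hper hM n t
    simpa [hT] using this
  have hneg : Summable (fun n : ℕ => T (-((n : ℤ) + 1))) := by
    have h1 : Summable (fun n : ℕ => M * Real.exp (-(2 * Real.pi * (b - t.im))) ^ (n + 1)) :=
      (summable_nat_add_iff 1).2 (summable_geo (M := M) (y := b - t.im) (by linarith [ht.2]))
    refine Summable.of_norm_bounded h1 fun n => ?_
    have := term_neg ha hb hf hper hM (n + 1) t
    have e1 : T (-((n : ℤ) + 1)) = fc f (-((n + 1 : ℕ) : ℤ)) *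
        Complex.exp (-(2 * Real.pi * Complex.I * ((n + 1 : ℕ) : ℂ) * t)) := by
      simp only [hT]
      congr 2
      push_cast
      ring
    rw [e1]
    exact this
  have hsT : Summable T := Summable.of_nat_of_neg_add_one hpos hneg
  have hsF : Summable (fourierCoeff F) := by
    rw [← summable_norm_iff]
    have h1 : Summable (fun N => ‖T N‖) := hsT.norm
    refine h1.congr fun N => ?_
    rw [← hTterm, norm_smul]
    have : ‖fourier N ((t.re : ℝ) : AddCircle (1:ℝ))‖ = 1 := by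
      rw [fourier_coe_apply, Complex.norm_exp]
      simp
    rw [this, mul_one]
  have h1 := has_pointwise_sum_fourier_series_of_summable hsF ((t.re : ℝ) : AddCircle (1:ℝ))
  rw [hFx] at h1
  have h2 : ((t.re : ℝ) : ℂ) + y * I = t := Complex.re_add_im t
  rw [h2] at h1
  have h3 : HasSum T (f t) := by
    have e2 : (fun N => fourierCoeff F N • fourier N ((t.re : ℝ) : AddCircle (1:ℝ))) = T :=
      funext hTterm
    rw [e2] at h1
    exact h1
  have h4 := HasSum.of_nat_of_neg_add_one hpos.hasSum hneg.hasSum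
  rw [h3.unique h4]
  congr 1
  refine tsum_congr fun n => ?_
  simp only [hT]
  congr 2
  push_cast
  ring

end Vale.Agent.P097.H490
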